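import Mathlib

/-! The notion of a Euclidean Ramsey set. -/

namespace Vale.Agent.P058

/-- `A` is Euclidean Ramsey: for every number `r ≥ 2` of colours there is a dimension `D ≥ 1` such
that every colouring of `ℝ^D` is constant on some isometric copy of `A`. -/
def IsRamsey {d : ℕ} (A : Set (EuclideanSpace ℝ (Fin d))) : Prop :=
  ∀ r : ℕ, 2 ≤ r → ∃ D : ℕ, 1 ≤ D ∧ ∀ col : EuclideanSpace ℝ (Fin D) → Fin r,
    ∃ φ : A → EuclideanSpace ℝ (Fin D),
      (∀ a b : A, dist (φ a) (φ b) = dist (a : EuclideanSpace ℝ (Fin d)) b) ∧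
      ∀ a b : A, col (φ a) = col (φ b)

end Vale.Agent.P058

namespace Vale.Agent.P058

/-- `X ⊆ ℝ^n` is transitive: the isometries of `ℝ^n` mapping `X` onto itself act transitively
on `X`. -/
def IsTransitive {n : ℕ} (X : Set (EuclideanSpace ℝ (Fin n))) : Prop :=
  ∀ x ∈ X, ∀ y ∈ X, ∃ e : EuclideanSpace ℝ (Fin n) ≃ᵢ EuclideanSpace ℝ (Fin n),
    e '' X = X ∧ e x = y

/-- `A` is subtransitive: it is congruent to a subset of a finite transitive set. -/
def IsSubtransitive {d : ℕ} (A : Set (EuclideanSpace ℝ (Fin d))) : Prop :=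
  ∃ (n : ℕ) (X : Set (EuclideanSpace ℝ (Fin n))), X.Finite ∧ IsTransitive X ∧
    ∃ φ : A → EuclideanSpace ℝ (Fin n),
      (∀ a b : A, dist (φ a) (φ b) = dist (a : EuclideanSpace ℝ (Fin d)) b) ∧ ∀ a : A, φ a ∈ X

end Vale.Agent.P058
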