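import Mathlib

/-! A fixed-size shift lemma for finite abelian groups of two-power order. -/

namespace Vale.Agent.P058

variable {ι : Type} [Fintype ι] [DecidableEq ι] {G : Type} [AddCommGroup G]

/-- The function equal to `s` on `F` and to `0` elsewhere. -/
def shiftOn (F : Finset ι) (s : G) : ι → G := fun j => if j ∈ F then s else 0

/-- The single-block property for a relation `R` on `G`. -/
def Homog (G : Type) [AddCommGroup G] (R : G → G → Prop) : Prop :=
  ∀ (κ : Type) [Finite κ], ∃ n p : ℕ, 0 < p ∧ ∀ f : (Fin n → G) → κ,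
    ∃ (x : Fin n → G) (F : Finset (Fin n)), F.card = p ∧
      ∀ a b, R a b → f (x + shiftOn F a) = f (x + shiftOn F b)

theorem homog_of_fintype {R : G → G → Prop} {κ : Type} [Finite κ] (ι : Type) [Fintype ι]
    [DecidableEq ι] (p : ℕ) (hp : 0 < p)
    (h : ∀ f : (ι → G) → κ, ∃ (x : ι → G) (F : Finset ι), F.card = p ∧
      ∀ a b, R a b → f (x + shiftOn F a) = f (x + shiftOn F b)) :
    ∃ n p : ℕ, 0 < p ∧ ∀ f : (Fin n → G) → κ,
      ∃ (x : Fin n → G) (F : Finset (Fin n)), F.card = p ∧
        ∀ a b, R a b → f (x + shiftOn F a) = f (x + shiftOn F b) := by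
  refine ⟨Fintype.card ι, p, hp, fun f => ?_⟩
  let e := Fintype.equivFin ι
  obtain ⟨x, F, hF, hR⟩ := h fun u => f (u ∘ e.symm)
  refine ⟨x ∘ e.symm, F.map e.toEmbedding, by simp [hF], fun a b hab => ?_⟩
  have hc : ∀ a : G, (x + shiftOn F a) ∘ e.symm = x ∘ e.symm + shiftOn (F.map e.toEmbedding) a := by
    intro a; funext j; simp [shiftOn]
  rw [← hc, ← hc]; exact hR a b hab

/-- Several blocks at once. -/
theorem homog_blocks {G : Type} [AddCommGroup G] [Finite G] {R : G → G → Prop}
    (hR : Homog G R) :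
    ∀ (N : ℕ) (κ : Type) [Finite κ], ∃ (ι : Type) (_ : Fintype ι) (_ : DecidableEq ι) (P : ℕ),
      0 < P ∧ ∀ f : (ι → G) → κ, ∃ (x : ι → G) (F : Fin N → Finset ι),
        (∀ l, (F l).card = P) ∧ (∀ l l', l ≠ l' → Disjoint (F l) (F l')) ∧
        ∀ y y' : Fin N → G, (∀ l, R (y l) (y' l) ∨ y l = y' l) →
          f (x + ∑ l, shiftOn (F l) (y l)) = f (x + ∑ l, shiftOn (F l) (y' l)) := by
  intro N
  induction N with
  | zero =>
    intro κ _
    refine ⟨Fin 0, inferInstance, inferInstance, 1, one_pos, fun f => ⟨0, fun l => ∅, ?_, ?_, ?_⟩⟩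
    · exact fun l => l.elim0
    · exact fun l => l.elim0
    · intro y y' _; simp
  | succ N ih =>
    intro κ _
    obtain ⟨ι, _, _, P, hP, ht⟩ := ih (G → κ)
    obtain ⟨n, p, hp, hh⟩ := hR ((ι → G) → κ)
    refine ⟨(Fin n × Fin P) ⊕ (ι × Fin p), inferInstance, inferInstance, P * p,
      Nat.mul_pos hP hp, fun f => ?_⟩
    let mix : (Fin n → G) → (ι → G) → (Fin n × Fin P) ⊕ (ι × Fin p) → G :=
      fun a b => Sum.elim (fun q => a q.1) (fun q => b q.1)
    obtain ⟨x0, F0, hF0, h0⟩ := hh fun a T => f (mix a T)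
    obtain ⟨x1, F1, hF1, hdisj, h1⟩ := ht fun T s => f (mix (x0 + shiftOn F0 s) T)
    let F : Fin (N + 1) → Finset ((Fin n × Fin P) ⊕ (ι × Fin p)) :=
      Fin.cons ((F0 ×ˢ Finset.univ).map Function.Embedding.inl)
        (fun l => (F1 l ×ˢ Finset.univ).map Function.Embedding.inr)
    refine ⟨mix x0 x1, F, ?_, ?_, ?_⟩
    · intro l
      refine Fin.cases ?_ ?_ l
      · simp [F, hF0, mul_comm]
      · intro l; simp [F, hF1]
    · intro l l' hne
      rw [Finset.disjoint_left]
      revert hne
      refine Fin.cases ?_ ?_ l <;> refine Fin.cases ?_ ?_ l'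
      · simp
      · intro l' _ q hq hq'
        simp [F] at hq hq'
        obtain ⟨_, _, _, rfl⟩ := hq; simp at hq'
      · intro l _ q hq hq'
        simp [F] at hq hq'
        obtain ⟨_, _, _, rfl⟩ := hq'; simp at hq
      · intro l' l hne q hq hq'
        simp [F] at hq hq'
        obtain ⟨a, ha, b, rfl⟩ := hq
        simp at hq'
        have := hdisj l l' (fun h => hne (by rw [h]))
        exact Finset.disjoint_left.mp this ha hq'
    · intro y y' hy
      have key : ∀ y : Fin (N + 1) → G, mix x0 x1 + ∑ l, shiftOn (F l) (y l) =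
          mix (x0 + shiftOn F0 (y 0)) (x1 + ∑ l : Fin N, shiftOn (F1 l) (y l.succ)) := by
        intro y; funext q
        rw [Fin.sum_univ_succ]
        rcases q with q | q <;> simp [F, mix, shiftOn]
      rw [key, key]
      have e0 := congrFun (h1 (fun l => y l.succ) (fun l => y' l.succ) fun l => hy l.succ) (y 0)
      rw [e0]
      rcases hy 0 with h | h
      · exact congrFun (h0 _ _ h) _
      · rw [h]

/-- Invariance under all shifts. -/
def ShiftLemma (G : Type) [AddCommGroup G] : Prop := Homog G fun _ _ => True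

/-- The induction step along a subgroup of index two. -/
theorem shiftLemma_step {G : Type} [AddCommGroup G] [Finite G] (H : AddSubgroup G) (r : G)
    (hr : r + r ∈ H) (hcov : ∀ g, g ∈ H ∨ g - r ∈ H) (hH : ShiftLemma H) : ShiftLemma G := by
  classical
  have h0 : Homog G (fun a b => a ∈ H ∧ b ∈ H) := by
    intro κ _
    obtain ⟨n, p, hp, h⟩ := hH κ
    refine ⟨n, p, hp, fun f => ?_⟩
    obtain ⟨u, F, hF, hu⟩ := h fun u => f fun j => (u j : G)
    refine ⟨fun j => (u j : G), F, hF, fun a b hab => ?_⟩
    have := hu ⟨a, hab.1⟩ ⟨b, hab.2⟩ trivial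
    have hc : ∀ c : H, (fun j => ((u + shiftOn F c : Fin n → H) j : G)) =
        (fun j => (u j : G)) + shiftOn F (c : G) := by
      intro c; funext j; by_cases hj : j ∈ F <;> simp [shiftOn, hj]
    simpa only [hc] using this
  have h1 : Homog G (fun a b => a - b ∈ H) := by
    intro κ _
    obtain ⟨n', p', hp', h'⟩ := hH κ
    obtain ⟨ι, _, _, P, hP, hb⟩ := homog_blocks h0 n' κ
    refine homog_of_fintype ι (p' * P) (Nat.mul_pos hp' hP) fun f => ?_
    obtain ⟨x, F, hF, hdisj, hinv⟩ := hb f
    obtain ⟨u, F', hF', hu⟩ := h' fun u => f (x + ∑ l, shiftOn (F l) ((u l : G) + r))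
    refine ⟨x + ∑ l, shiftOn (F l) (if l ∈ F' then (u l : G) else (u l : G) + r),
      F'.biUnion F, ?_, ?_⟩
    · rw [Finset.card_biUnion (fun a _ b _ h => hdisj a b h)]; simp [hF, hF']
    have hsh : ∀ s : G, x + ∑ l, shiftOn (F l) (if l ∈ F' then (u l : G) else (u l : G) + r) +
        shiftOn (F'.biUnion F) s =
        x + ∑ l, shiftOn (F l) (if l ∈ F' then (u l : G) + s else (u l : G) + r) := by
      intro s
      rw [add_assoc]; congr 1; funext j
      simp only [Pi.add_apply, Finset.sum_apply, shiftOn]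
      have hs : (if j ∈ F'.biUnion F then s else 0) =
          ∑ l, (if l ∈ F' then (if j ∈ F l then s else 0) else 0) := by
        rw [Finset.sum_ite_mem, Finset.univ_inter]
        split_ifs with h
        · obtain ⟨l, hl, hjl⟩ := Finset.mem_biUnion.mp h
          rw [Finset.sum_eq_single l (fun b _ hbl => ?_) (fun h' => absurd hl h'), if_pos hjl]
          exact if_neg fun hjb => Finset.disjoint_left.mp (hdisj b l hbl) hjb hjl
        · refine (Finset.sum_eq_zero fun l hl => if_neg fun hjl => h ?_).symm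
          exact Finset.mem_biUnion.mpr ⟨l, hl, hjl⟩
      rw [hs, ← Finset.sum_add_distrib]
      refine Finset.sum_congr rfl fun l _ => ?_
      split_ifs <;> simp
    have heven : ∀ h ∈ H, f (x + ∑ l, shiftOn (F l) (if l ∈ F' then (u l : G) + h else (u l : G) + r))
        = f (x + ∑ l, shiftOn (F l) (if l ∈ F' then (u l : G) else (u l : G) + r)) := by
      intro h hh
      refine hinv _ _ fun l => ?_
      by_cases hl : l ∈ F'
      · left; simp only [hl, ↓reduceIte]; exact ⟨H.add_mem (u l).2 hh, (u l).2⟩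
      · right; simp [hl]
    have hodd : ∀ h (hh : h ∈ H),
        f (x + ∑ l, shiftOn (F l) (if l ∈ F' then (u l : G) + (h + r) else (u l : G) + r))
        = f (x + ∑ l, shiftOn (F l) ((u l : G) + r)) := by
      intro h hh
      have e := hu ⟨h, hh⟩ 0 trivial
      have q : ∀ c : H, (fun l => (((u + shiftOn F' c : Fin n' → H) l : G) + r)) =
          fun l => if l ∈ F' then (u l : G) + ((c : G) + r) else (u l : G) + r := by
        intro c; funext l; by_cases hl : l ∈ F' <;> simp [shiftOn, hl, add_assoc]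
      have q0 := q ⟨h, hh⟩
      have q1 : (fun l => (((u + shiftOn F' (0:H) : Fin n' → H) l : G) + r)) =
          fun l => (u l : G) + r := by
        funext l; simp [shiftOn]
      simp only [funext_iff] at q0 q1
      simpa only [q0, q1] using e
    intro a b hab
    rw [hsh, hsh]
    rcases hcov a with ha | ha
    · have hb : b ∈ H := by have := H.sub_mem ha hab; simpa using this
      rw [heven a ha, heven b hb]
    · have hb : b - r ∈ H := by have := H.sub_mem ha hab; simpa using this
      have ea := hodd _ ha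
      have eb := hodd _ hb
      simp only [sub_add_cancel] at ea eb
      rw [ea, eb]
  intro κ _
  have := Fintype.ofFinite κ
  obtain ⟨ι, _, _, P, hP, hb⟩ := homog_blocks h1 (Fintype.card κ + 1) κ
  refine homog_of_fintype ι (2 * P) (by omega) fun f => ?_
  obtain ⟨x, F, hF, hdisj, hinv⟩ := hb f
  let e : Fin (Fintype.card κ + 1) → Fin (Fintype.card κ + 1) → G := fun a l => if l = a then r else 0
  obtain ⟨a, b, hne, hab⟩ : ∃ a b, a ≠ b ∧
      f (x + ∑ l, shiftOn (F l) (e a l)) = f (x + ∑ l, shiftOn (F l) (e b l)) :=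
    Fintype.exists_ne_map_eq_of_card_lt _ (by simp)
  refine ⟨x + ∑ l, shiftOn (F l) (e a l), F a ∪ F b, ?_, ?_⟩
  · rw [Finset.card_union_of_disjoint (hdisj a b hne), hF, hF]; omega
  suffices h : ∀ s, f (x + ∑ l, shiftOn (F l) (e a l) + shiftOn (F a ∪ F b) s) =
      f (x + ∑ l, shiftOn (F l) (e a l)) from fun s t _ => (h s).trans (h t).symm
  intro s
  have hsh : x + ∑ l, shiftOn (F l) (e a l) + shiftOn (F a ∪ F b) s =
      x + ∑ l, shiftOn (F l) (e a l + if l = a ∨ l = b then s else 0) := by
    rw [add_assoc]; congr 1; funext j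
    simp only [Pi.add_apply, Finset.sum_apply, shiftOn, Finset.mem_union]
    have hs : (if j ∈ F a ∨ j ∈ F b then s else 0) =
        ∑ l, if l = a ∨ l = b then (if j ∈ F l then s else 0) else 0 := by
      rw [← Finset.sum_subset (Finset.subset_univ {a, b}) (fun l _ hl => by
        simp only [Finset.mem_insert, Finset.mem_singleton] at hl; simp [hl]), Finset.sum_pair hne]
      by_cases h1 : j ∈ F a
      · have h2 : j ∉ F b := Finset.disjoint_left.mp (hdisj a b hne) h1
        simp [h1, h2]
      · simp [h1]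
    rw [hs, ← Finset.sum_add_distrib]
    refine Finset.sum_congr rfl fun l _ => ?_
    split_ifs <;> simp
  rw [hsh]
  rcases hcov s with hs | hs
  · refine hinv _ _ fun l => Or.inl ?_
    show _ - e a l ∈ H
    split_ifs <;> simp [hs]
  · rw [hab]
    refine hinv _ _ fun l => Or.inl ?_
    show _ - e b l ∈ H
    by_cases h1 : l = a
    · subst h1
      simp only [e, if_neg hne, if_pos rfl, true_or, ↓reduceIte]
      have : r + s - 0 = (r + r) + (s - r) := by abel
      rw [this]; exact H.add_mem hr hs
    · by_cases h2 : l = b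
      · subst h2; simp [e, h1, hs]
      · simp [e, h1, h2]

theorem shiftLemma_two_pow : ∀ (m : ℕ) (G : Type) [AddCommGroup G] [Finite G],
    Nat.card G = 2 ^ m → ShiftLemma G := by
  intro m
  induction m with
  | zero =>
    intro G _ _ hG κ _
    have : Subsingleton G := (Nat.card_eq_one_iff_unique.mp (by simpa using hG)).1
    exact ⟨1, 1, one_pos, fun f => ⟨0, {0}, by simp, fun a b _ => by rw [Subsingleton.elim a b]⟩⟩
  | succ m ih =>
    intro G _ _ hG
    haveI : Fact (Nat.Prime 2) := ⟨Nat.prime_two⟩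
    obtain ⟨K, hK⟩ := Sylow.exists_subgroup_card_pow_prime (G := Multiplicative G) 2 (n := m) (by
      rw [show Nat.card (Multiplicative G) = Nat.card G from Nat.card_congr Multiplicative.toAdd, hG]
      exact pow_dvd_pow _ (Nat.le_succ m))
    let H : AddSubgroup G := Subgroup.toAddSubgroup' K
    have hH : Nat.card H = 2 ^ m := hK
    have hidx : H.index = 2 := by
      have := H.card_mul_index
      rw [hH, hG, pow_succ] at this
      exact Nat.eq_of_mul_eq_mul_left (pow_pos two_pos m) this
    obtain ⟨r, hr⟩ := AddSubgroup.index_eq_two_iff.mp hidx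
    have hr' : r ∉ H := by
      intro h
      have := hr 0
      rw [zero_add] at this
      rcases this with ⟨_, h2⟩ | ⟨_, h2⟩
      · exact h2 H.zero_mem
      · exact h2 h
    refine shiftLemma_step H r (AddSubgroup.add_self_mem_of_index_two hidx r) ?_ (ih H hH)
    intro g
    by_cases hg : g ∈ H
    · exact Or.inl hg
    · right
      rw [sub_eq_add_neg, AddSubgroup.add_mem_iff_of_index_two hidx]
      simp [hg, hr']

end Vale.Agent.P058
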