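import Mathlib
import Vale.Agent.P058.Defs
import Vale.Agent.P058.Shift

/-! A sufficient condition for a finite planar configuration to be Ramsey. -/

namespace Vale.Agent.P058

/-- The character `v ↦ exp (2πi v / q)`. -/
noncomputable def chr {q : ℕ} [NeZero q] (v : ZMod q) : ℂ := (ZMod.toCircle v : ℂ)

theorem chr_add {q : ℕ} [NeZero q] (u v : ZMod q) : chr (u + v) = chr u * chr v := by
  simp [chr, AddChar.map_add_eq_mul]

theorem norm_chr {q : ℕ} [NeZero q] (v : ZMod q) : ‖chr v‖ = 1 := Circle.norm_coe _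

/-- A rotation pair for the configuration `a`: a family `Y` similar to `a` with squared ratio `ε`,
whose individually rotated copy is similar to `a` with squared ratio `σ`. -/
def HasPair {na : ℕ} (a : Fin na → ℂ) (m : ℕ) (ε σ : ℝ) : Prop :=
  ∃ (Y : Fin na → Fin 3 → ℂ) (g : Fin na → Fin 3 → ZMod (2 ^ m)),
    (∀ i j, ∑ r, ‖Y i r - Y j r‖ ^ 2 = ε * ‖a i - a j‖ ^ 2) ∧
    (∀ i j, ∑ r, ‖chr (g i r) * Y i r - chr (g j r) * Y j r‖ ^ 2 = σ * ‖a i - a j‖ ^ 2)

/-- For each number of colours and each level `m`, a threshold below which a rotation pair gives a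
monochromatic copy. -/
theorem exists_threshold (na k : ℕ) (m : ℕ) :
    ∃ η : ℝ, 0 < η ∧ η < 1 ∧ ∀ (a : Fin na → ℂ) (ε σ : ℝ), 0 ≤ ε → ε < η * σ → HasPair a m ε σ →
      ∃ D, 1 ≤ D ∧ ∀ col : EuclideanSpace ℝ (Fin D) → Fin k,
        ∃ φ : Fin na → EuclideanSpace ℝ (Fin D),
          (∀ i j, dist (φ i) (φ j) = ‖a i - a j‖) ∧ ∀ i j, col (φ i) = col (φ j) := by
  classical
  obtain ⟨ι, hι, hHJ⟩ := Combinatorics.Line.exists_mono_in_high_dimension (Fin na) (Fin k)
  set N := Fintype.card ι with hN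
  have hcard : Nat.card ((ι × Fin N) → Fin 3 → ZMod (2 ^ m)) = 2 ^ (m * 3 * (N * N)) := by
    simp [Nat.card_eq_fintype_card, ZMod.card, pow_mul, ← hN]
  obtain ⟨n, p, hp, hsh⟩ := shiftLemma_two_pow (m * 3 * (N * N))
    ((ι × Fin N) → Fin 3 → ZMod (2 ^ m)) hcard ((ι → Fin na) → Fin k)
  let K := ((ι × Fin N) × Fin n × Fin 3) ⊕ ι
  refine ⟨(p : ℝ) / (N * n + p + 1), by positivity, ?_, ?_⟩
  · rw [div_lt_one (by positivity)]
    have h1 : (0:ℝ) ≤ N * n := by positivity
    linarith
  intro a ε σ hε hlt hpair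
  obtain ⟨Y, g, hE, hW⟩ := hpair
  have hlt' : ε * (N * n + p + 1) < p * σ := by
    have hd : (0:ℝ) < N * n + p + 1 := by positivity
    rw [div_mul_eq_mul_div, lt_div_iff₀ hd] at hlt; linarith
  have hσε : 0 < (p:ℝ) * (σ - ε) := by
    have h1 : 0 ≤ ε * (N * n) := by positivity
    nlinarith
  set τ : ℝ := p * (σ - ε) - N * n * ε with hτ
  have hτ0 : 0 ≤ τ := by rw [hτ]; nlinarith
  refine ⟨Fintype.card (K × Fin 2) + 1, by omega, fun col => ?_⟩
  let e : K × Fin 2 ⊕ Unit ≃ Fin (Fintype.card (K × Fin 2) + 1) :=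
    Fintype.equivFinOfCardEq (by rw [Fintype.card_sum, Fintype.card_unit])
  let emb : (K → ℂ) → EuclideanSpace ℝ (Fin (Fintype.card (K × Fin 2) + 1)) := fun v =>
    WithLp.toLp 2 fun d => Sum.elim (fun q => (![(v q.1).re, (v q.1).im] : Fin 2 → ℝ) q.2)
      (fun _ => 0) (e.symm d)
  have hemb : ∀ v v', dist (emb v) (emb v') ^ 2 = ∑ q, ‖v q - v' q‖ ^ 2 := by
    intro v v'
    rw [dist_eq_norm, EuclideanSpace.real_norm_sq_eq]
    simp only [emb, PiLp.sub_apply]
    rw [← e.sum_comp]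
    simp only [Equiv.symm_apply_apply, Fintype.sum_sum_type, Sum.elim_inl, Sum.elim_inr,
      Fintype.sum_prod_type, Fin.sum_univ_two, Matrix.cons_val_zero, Matrix.cons_val_one]
    simp [Complex.sq_norm, Complex.normSq_apply, sq, Fintype.sum_sum_type,
      Fintype.sum_prod_type]
    refine Finset.sum_congr rfl fun q _ => ?_
    rw [Complex.norm_mul_self_eq_normSq, Complex.normSq_apply]
    simp
  set κ : ℝ := (Real.sqrt (N * (p * (σ - ε))))⁻¹ with hκ
  let X : (ι → Fin na) → (Fin n → (ι × Fin N) → Fin 3 → ZMod (2 ^ m)) → K → ℂ := fun w h =>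
    Sum.elim (fun q => (κ:ℂ) * (chr (h q.2.1 q.1 q.2.2) * Y (w q.1.1) q.2.2))
      (fun l => (κ:ℂ) * ((Real.sqrt τ : ℂ) * a (w l)))
  obtain ⟨x, F, hF, hinv⟩ := hsh fun h w => col (emb (X w h))
  obtain ⟨l, c, hl⟩ := hHJ fun w => col (emb (X w x))
  set V : Finset ι := Finset.univ.filter fun u => l.idxFun u = none with hV
  obtain ⟨u0, hu0⟩ := l.proper
  have ht1 : 1 ≤ V.card := Finset.card_pos.mpr ⟨u0, by simp [hV, hu0]⟩
  obtain ⟨S, hS, hScard⟩ := Finset.exists_subset_card_eq (s := V ×ˢ (Finset.univ : Finset (Fin N)))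
    (n := N - V.card) (by
      rw [Finset.card_product, Finset.card_univ, Fintype.card_fin]
      exact (Nat.sub_le _ _).trans (Nat.le_mul_of_pos_left N ht1))
  have htN : V.card ≤ N := by rw [hN]; exact Finset.card_le_univ V
  let s : Fin na → (ι × Fin N) → Fin 3 → ZMod (2 ^ m) := fun i u r => if u ∈ S then g i r else 0
  refine ⟨fun i => emb (X (l i) (x + shiftOn F (s i))), fun i j => ?_, fun i j => ?_⟩
  · rw [← pow_left_inj₀ dist_nonneg (norm_nonneg _) two_ne_zero, hemb]
    simp only [X, K, Fintype.sum_sum_type, Sum.elim_inl, Sum.elim_inr]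
    set d := ‖a i - a j‖ ^ 2 with hd
    have hone : ∀ (u : ι × Fin N) (q : Fin n),
        ∑ r, ‖(κ:ℂ) * (chr ((x + shiftOn F (s i)) q u r) * Y (l i u.1) r) -
          (κ:ℂ) * (chr ((x + shiftOn F (s j)) q u r) * Y (l j u.1) r)‖ ^ 2 =
        κ ^ 2 * ((if u ∈ V ×ˢ (Finset.univ : Finset (Fin N)) then ε * d else 0) +
          (if u ∈ S then (if q ∈ F then (σ - ε) * d else 0) else 0)) := by
      intro u q
      have hx : ∀ i r, chr ((x + shiftOn F (s i)) q u r) =
          chr (x q u r) * (if u ∈ S ∧ q ∈ F then chr (g i r) else 1) := by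
        intro i r
        rw [Pi.add_apply, Pi.add_apply, Pi.add_apply, chr_add]
        by_cases h1 : q ∈ F <;> by_cases h2 : u ∈ S <;> simp [shiftOn, s, h1, h2, chr]
      simp only [hx, mul_assoc, ← mul_sub, norm_mul, mul_pow, Complex.norm_real, Real.norm_eq_abs,
        sq_abs, norm_chr, one_pow, one_mul, ← Finset.mul_sum]
      congr 1
      by_cases hu : u.1 ∈ V
      · have hn : l.idxFun u.1 = none := by simpa [hV] using hu
        have hu' : u ∈ V ×ˢ (Finset.univ : Finset (Fin N)) := by simp [hu]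
        simp only [Combinatorics.Line.coe_apply, hn, Option.getD_none, hu', ↓reduceIte]
        by_cases h : u ∈ S ∧ q ∈ F
        · simp only [h.1, h.2, and_self, ↓reduceIte, hW]; ring
        · simp only [h, ↓reduceIte, one_mul, hE]
          rcases not_and_or.mp h with h | h <;> simp [h, hd]
      · have hu' : u ∉ V ×ˢ (Finset.univ : Finset (Fin N)) := by simp [hu]
        have hS' : u ∉ S := fun h => hu' (hS h)
        obtain ⟨y, hy⟩ : ∃ y, l.idxFun u.1 = some y :=
          Option.ne_none_iff_exists'.mp (by simpa [hV] using hu)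
        simp [Combinatorics.Line.coe_apply, hy, hu', hS']
    have htwo : ∀ u : ι, ‖(κ:ℂ) * ((Real.sqrt τ : ℂ) * a (l i u)) -
        (κ:ℂ) * ((Real.sqrt τ : ℂ) * a (l j u))‖ ^ 2 = κ ^ 2 * (if u ∈ V then τ * d else 0) := by
      intro u
      simp only [← mul_sub, norm_mul, mul_pow, Complex.norm_real, Real.norm_eq_abs, sq_abs,
        Real.sq_sqrt hτ0]
      congr 1
      by_cases hu : u ∈ V
      · have hn : l.idxFun u = none := by simpa [hV] using hu
        simp [Combinatorics.Line.coe_apply, hn, hu, hd]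
      · obtain ⟨y, hy⟩ : ∃ y, l.idxFun u = some y :=
          Option.ne_none_iff_exists'.mp (by simpa [hV] using hu)
        simp [Combinatorics.Line.coe_apply, hy, hu]
    rw [Fintype.sum_prod_type]
    simp only [Fintype.sum_prod_type (α₁ := Fin n), hone, htwo, ← Finset.mul_sum,
      Finset.sum_add_distrib, Finset.sum_ite_mem, Finset.univ_inter, Finset.sum_const,
      Finset.card_univ, Fintype.card_fin, nsmul_eq_mul, Finset.sum_ite_irrel, Finset.sum_const_zero,
      hScard, hF, Finset.card_product, Nat.cast_mul, Nat.cast_sub htN]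
    simp only [mul_zero, Finset.sum_ite_mem, Finset.univ_inter, Finset.sum_const,
      nsmul_eq_mul, hScard, Nat.cast_sub htN]
    rw [hκ, inv_pow, Real.sq_sqrt (by positivity)]
    have hN0 : (0:ℝ) < N := by exact_mod_cast (by omega : 0 < N)
    have hσ' : σ - ε ≠ 0 := (pos_of_mul_pos_right hσε (Nat.cast_nonneg p)).ne'
    rw [hτ]
    field_simp
    ring
  · have h0 : ∀ i, col (emb (X (l i) (x + shiftOn F (s i)))) = c := by
      intro i
      have h := congrFun (hinv (s i) 0 trivial) (l i)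
      have hz : x + shiftOn F (0 : (ι × Fin N) → Fin 3 → ZMod (2 ^ m)) = x := by
        funext q; simp [shiftOn]
      simp only [hz] at h
      rw [h]; exact hl i
    rw [h0, h0]

end Vale.Agent.P058
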