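import Mathlib

/-! Derivations of the real field with prescribed values on algebraically independent reals. -/

open MvPolynomial

namespace Vale.Agent.P058

theorem exists_derivation {ι : Type} (v w : ι → ℝ) (hv : AlgebraicIndependent ℚ v) :
    ∃ D : Derivation ℤ ℝ ℝ, ∀ i, D (v i) = w i := by
  let P := MvPolynomial ι ℚ
  let F := FractionRing P
  have hinj : Function.Injective (MvPolynomial.aeval v : P →ₐ[ℚ] ℝ) := hv
  let ev : P →+* ℝ := (MvPolynomial.aeval v : P →ₐ[ℚ] ℝ).toRingHom
  let j : F →+* ℝ := IsFractionRing.lift (g := ev) hinj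
  let evd : P →+* DualNumber ℝ :=
    (MvPolynomial.aeval (fun i => (TrivSqZeroExt.inl (v i) + TrivSqZeroExt.inr (w i) : DualNumber ℝ)) :
      P →ₐ[ℚ] DualNumber ℝ).toRingHom
  have hfst : ∀ p, TrivSqZeroExt.fst (evd p) = ev p := by
    intro p
    have h : ((TrivSqZeroExt.fstHom ℚ ℝ ℝ).comp
      (MvPolynomial.aeval (fun i => (TrivSqZeroExt.inl (v i) + TrivSqZeroExt.inr (w i) : DualNumber ℝ)))) =
        MvPolynomial.aeval v := by
      ext i; simp
    exact DFunLike.congr_fun h p
  have hunit : ∀ y : nonZeroDivisors P, IsUnit (evd y) := by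
    intro y
    rw [TrivSqZeroExt.isUnit_iff_isUnit_fst, hfst]
    exact isUnit_iff_ne_zero.mpr fun h =>
      nonZeroDivisors.coe_ne_zero y (hinj (by rw [map_zero]; exact h))
  let ψ : F →+* DualNumber ℝ := IsLocalization.lift hunit
  letI : Algebra F ℝ := j.toAlgebra
  letI algD : Algebra F (DualNumber ℝ) := ψ.toAlgebra
  let π : DualNumber ℝ →ₐ[F] ℝ :=
    { TrivSqZeroExt.fstHom ℚ ℝ ℝ with
      commutes' := by
        intro x
        have h : ((TrivSqZeroExt.fstHom ℚ ℝ ℝ).toRingHom.comp ψ) = j := by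
          apply IsLocalization.ringHom_ext (nonZeroDivisors P)
          ext p <;> simp [ψ, j, hfst, IsFractionRing.lift_algebraMap]
        exact RingHom.congr_fun h x }
  haveI : FaithfulSMul F ℝ := (faithfulSMul_iff_algebraMap_injective F ℝ).mpr j.injective
  haveI : Algebra.FormallySmooth F ℝ := by
    obtain ⟨b, hb⟩ : ∃ b : Set ℝ, IsTranscendenceBasis F ((↑) : b → ℝ) :=
      exists_isTranscendenceBasis F ℝ
    haveI := hb.isAlgebraic_field
    haveI : Algebra.IsSeparable (IntermediateField.adjoin F (Set.range ((↑) : b → ℝ))) ℝ :=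
      inferInstance
    exact Algebra.FormallySmooth.of_algebraicIndependent_of_isSeparable hb.1
  have hsurj : Function.Surjective π := fun x => ⟨TrivSqZeroExt.inl x, by simp [π]⟩
  have hnil : IsNilpotent (RingHom.ker (π : DualNumber ℝ →+* ℝ)) := by
    refine ⟨2, le_bot_iff.mp ?_⟩
    rw [show ∀ I : Ideal (DualNumber ℝ), I ^ 2 = I * I from fun I => pow_two I, Ideal.mul_le]
    intro a ha b hb
    have ha' : TrivSqZeroExt.fst a = 0 := ha
    have hb' : TrivSqZeroExt.fst b = 0 := hb
    rw [Submodule.mem_bot]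
    ext <;> simp [ha', hb']
  let φ : ℝ →ₐ[F] DualNumber ℝ :=
    Algebra.FormallySmooth.liftOfSurjective (AlgHom.id F ℝ) π hsurj hnil
  have hφ : ∀ x, TrivSqZeroExt.fst (φ x) = x := fun x =>
    Algebra.FormallySmooth.liftOfSurjective_apply _ π hsurj hnil x
  let g : ℝ →+ ℝ :=
    { toFun := fun x => TrivSqZeroExt.snd (φ x)
      map_zero' := by simp
      map_add' := by simp }
  refine ⟨{ toLinearMap := g.toIntLinearMap
            map_one_eq_zero' := by simp [g]
            leibniz' := by
              intro a b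
              simp [g, hφ, mul_comm] }, ?_⟩
  intro i
  show TrivSqZeroExt.snd (φ (v i)) = w i
  have hx : v i = algebraMap F ℝ (algebraMap P F (X i)) := by
    show v i = j _
    simp only [j, ev, IsFractionRing.lift_algebraMap]
    exact (MvPolynomial.aeval_X v i).symm
  rw [hx, φ.commutes]
  show TrivSqZeroExt.snd (ψ _) = w i
  simp only [ψ, evd, IsLocalization.lift_eq]
  change TrivSqZeroExt.snd (MvPolynomial.aeval _ (X i)) = w i
  rw [MvPolynomial.aeval_X]
  simp

end Vale.Agent.P058
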