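import Mathlib
import Vale.Agent.P058.Criterion

/-! Rotation pairs for cyclic quadrilaterals with nearly dyadic angles. -/

open Complex Topology Filter ComplexConjugate

namespace Vale.Agent.P058

/-- The four points on the unit circle with angles `θ`. -/
noncomputable def circ (θ : Fin 4 → ℝ) : Fin 4 → ℂ := fun i => Complex.exp ((θ i : ℂ) * Complex.I)

theorem norm_circ (θ : Fin 4 → ℝ) (i : Fin 4) : ‖circ θ i‖ = 1 := by
  simp [circ, Complex.norm_exp_ofReal_mul_I]

theorem conj_circ (θ : Fin 4 → ℝ) (i : Fin 4) : conj (circ θ i) = (circ θ i)⁻¹ := by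
  rw [Complex.inv_eq_conj (norm_circ θ i)]

theorem circ_ne_zero (θ : Fin 4 → ℝ) (i : Fin 4) : circ θ i ≠ 0 := Complex.exp_ne_zero _

/-- Unnormalised coefficients of the affine dependence. -/
def dep (z : Fin 4 → ℂ) : Fin 4 → ℂ :=
  ![z 0 * (z 1 - z 2) * (z 1 - z 3) * (z 2 - z 3),
    -(z 1 * (z 0 - z 2) * (z 0 - z 3) * (z 2 - z 3)),
    z 2 * (z 0 - z 1) * (z 0 - z 3) * (z 1 - z 3),
    -(z 3 * (z 0 - z 1) * (z 0 - z 2) * (z 1 - z 2))]

/-- The Vandermonde product of four complex numbers. -/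
def vdm (z : Fin 4 → ℂ) : ℂ :=
  (z 0 - z 1) * (z 0 - z 2) * (z 0 - z 3) * (z 1 - z 2) * (z 1 - z 3) * (z 2 - z 3)

/-- Normalised coefficients. -/
noncomputable def coef (z : Fin 4 → ℂ) : Fin 4 → ℂ := fun i => dep z i / dep z 3

theorem dep_ne_zero {z : Fin 4 → ℂ} (h0 : ∀ i, z i ≠ 0) (hd : Function.Injective z) (i : Fin 4) :
    dep z i ≠ 0 := by
  have h : ∀ a b : Fin 4, a ≠ b → z a - z b ≠ 0 := fun a b hab => sub_ne_zero.mpr (hd.ne hab)
  fin_cases i <;>
    simp [dep, h0, h 0 1 (by decide), h 0 2 (by decide), h 0 3 (by decide), h 1 2 (by decide),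
      h 1 3 (by decide), h 2 3 (by decide)]

theorem sum_dep (z : Fin 4 → ℂ) : ∑ i, dep z i = 0 := by
  simp [dep, Fin.sum_univ_four]; ring

theorem sum_dep_mul (z : Fin 4 → ℂ) : ∑ i, dep z i * z i = 0 := by
  simp [dep, Fin.sum_univ_four]; ring

theorem sum_dep_sq (z : Fin 4 → ℂ) : ∑ i, dep z i * z i ^ 2 = vdm z := by
  simp [dep, vdm, Fin.sum_univ_four]; ring

theorem conj_dep {θ : Fin 4 → ℝ} (i : Fin 4) :
    conj (dep (circ θ) i) * (circ θ 0 * circ θ 1 * circ θ 2 * circ θ 3) ^ 2 =
      - dep (circ θ) i := by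
  have h0 := circ_ne_zero θ 0; have h1 := circ_ne_zero θ 1
  have h2 := circ_ne_zero θ 2; have h3 := circ_ne_zero θ 3
  fin_cases i <;> simp [dep, map_sub, map_mul, conj_circ] <;> field_simp <;> ring

variable {θ : Fin 4 → ℝ}

theorem conj_coef (hd : Function.Injective (circ θ)) (i : Fin 4) :
    conj (coef (circ θ) i) = coef (circ θ) i := by
  have h := dep_ne_zero (circ_ne_zero θ) hd
  have hP : circ θ 0 * circ θ 1 * circ θ 2 * circ θ 3 ≠ 0 := by simp [circ_ne_zero]
  have hc : ∀ i, conj (dep (circ θ) i) =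
      - dep (circ θ) i / (circ θ 0 * circ θ 1 * circ θ 2 * circ θ 3) ^ 2 := by
    intro i
    rw [eq_div_iff (pow_ne_zero 2 hP)]
    exact conj_dep (θ := θ) i
  rw [coef, map_div₀, hc, hc, div_div_div_cancel_right₀ (pow_ne_zero 2 hP), neg_div_neg_eq]

theorem sum_coef (z : Fin 4 → ℂ) : ∑ i, coef z i = 0 := by
  simp [coef, ← Finset.sum_div, sum_dep]

theorem sum_coef_mul (z : Fin 4 → ℂ) : ∑ i, coef z i * z i = 0 := by
  simp [coef, div_mul_eq_mul_div, ← Finset.sum_div, sum_dep_mul]

/-- The second moment `∑ c i * z i ^ 2`. -/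
noncomputable def mom (z : Fin 4 → ℂ) : ℂ := vdm z / dep z 3

theorem sum_coef_sq (z : Fin 4 → ℂ) : ∑ i, coef z i * z i ^ 2 = mom z := by
  simp [coef, mom, div_mul_eq_mul_div, ← Finset.sum_div, sum_dep_sq]

/-- Denominator of the ratio `alp`. -/
noncomputable def alpDen (ζ : Fin 4 → ℂ) (z : Fin 4 → ℂ) : ℂ := ∑ i, coef z i * ζ i * z i

/-- The similarity ratio of the small configuration. -/
noncomputable def alp (ζ : Fin 4 → ℂ) (z : Fin 4 → ℂ) : ℂ := -(∑ i, coef z i * ζ i) / alpDen ζ z

/-- Differences of the rotated configuration. -/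
noncomputable def vv (ζ : Fin 4 → ℂ) (z : Fin 4 → ℂ) (i : Fin 4) : ℂ :=
  ζ i * (1 + alp ζ z * z i) - ζ 3 * (1 + alp ζ z * z 3)

/-- The determinant used in `lam` and `muu`. -/
noncomputable def det2 (z : Fin 4 → ℂ) : ℂ :=
  (z 0 - z 3) * conj (z 1 - z 3) - conj (z 0 - z 3) * (z 1 - z 3)

/-- The conformal part of the rotated configuration. -/
noncomputable def lam (ζ : Fin 4 → ℂ) (z : Fin 4 → ℂ) : ℂ :=
  (vv ζ z 0 * conj (z 1 - z 3) - vv ζ z 1 * conj (z 0 - z 3)) / det2 z

/-- The anticonformal part of the rotated configuration. -/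
noncomputable def muu (ζ : Fin 4 → ℂ) (z : Fin 4 → ℂ) : ℂ :=
  ((z 0 - z 3) * vv ζ z 1 - (z 1 - z 3) * vv ζ z 0) / det2 z

/-- The anisotropy. -/
noncomputable def aniso (ζ : Fin 4 → ℂ) (z : Fin 4 → ℂ) : ℝ :=
  (lam ζ z * conj (muu ζ z) * mom z).im

theorem det2_circ (θ : Fin 4 → ℝ) : det2 (circ θ) * (circ θ 0 * circ θ 1 * circ θ 3) =
    (circ θ 1 - circ θ 0) * (circ θ 0 - circ θ 3) * (circ θ 1 - circ θ 3) := by
  have h0 := circ_ne_zero θ 0; have h1 := circ_ne_zero θ 1; have h3 := circ_ne_zero θ 3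
  simp [det2, map_sub, conj_circ]; field_simp; ring

theorem det2_ne_zero (hd : Function.Injective (circ θ)) : det2 (circ θ) ≠ 0 := by
  intro h
  have e := det2_circ θ
  rw [h, zero_mul] at e
  exact mul_ne_zero (mul_ne_zero (sub_ne_zero.mpr (hd.ne (by decide : (1 : Fin 4) ≠ 0)))
    (sub_ne_zero.mpr (hd.ne (by decide : (0 : Fin 4) ≠ 3))))
    (sub_ne_zero.mpr (hd.ne (by decide : (1 : Fin 4) ≠ 3))) e.symm

/-- The rotated configuration is an affine image of the original one, and its anisotropy is a real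
number. -/
theorem component_spec (hd : Function.Injective (circ θ)) (ζ : Fin 4 → ℂ) (hζ : ∀ i, ‖ζ i‖ = 1)
    (hden : alpDen ζ (circ θ) ≠ 0) :
    (∀ i j, ζ i * (1 + alp ζ (circ θ) * circ θ i) - ζ j * (1 + alp ζ (circ θ) * circ θ j) =
        lam ζ (circ θ) * (circ θ i - circ θ j) + muu ζ (circ θ) * conj (circ θ i - circ θ j)) ∧
      (lam ζ (circ θ) * conj (muu ζ (circ θ)) * mom (circ θ)).re = 0 := by
  set z := circ θ with hz
  set c := coef z with hc
  set α := alp ζ z with hα
  set l := lam ζ z with hl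
  set μ := muu ζ z with hμ
  set v := vv ζ z with hv
  have hdet := det2_ne_zero hd
  have hc2 : c 2 ≠ 0 :=
    div_ne_zero (dep_ne_zero (circ_ne_zero θ) hd 2) (dep_ne_zero (circ_ne_zero θ) hd 3)
  have hcr : ∀ i, conj (c i) = c i := conj_coef hd
  have hs0 : ∑ i, c i = 0 := sum_coef z
  have hs1 : ∑ i, c i * z i = 0 := sum_coef_mul z
  have hs1' : ∑ i, c i * conj (z i) = 0 := by
    have := congrArg conj hs1
    simpa [map_sum, hcr] using this
  have hW : ∑ i, c i * (ζ i * (1 + α * z i)) = 0 := by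
    have e : ∑ i, c i * (ζ i * (1 + α * z i)) = (∑ i, c i * ζ i) + α * alpDen ζ z := by
      simp only [alpDen, Finset.mul_sum, ← Finset.sum_add_distrib]
      refine Finset.sum_congr rfl fun i _ => ?_
      rw [← hc]; ring
    rw [e, hα, alp, div_mul_cancel₀ _ hden, ← hc]; ring
  have hv3 : ∀ i, v i = l * (z i - z 3) + μ * conj (z i - z 3) := by
    have e0 : v 0 = l * (z 0 - z 3) + μ * conj (z 0 - z 3) := by
      rw [hl, hμ, lam, muu, ← hv, div_mul_eq_mul_div, div_mul_eq_mul_div, ← add_div,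
        eq_div_iff hdet, det2]
      ring
    have e1 : v 1 = l * (z 1 - z 3) + μ * conj (z 1 - z 3) := by
      rw [hl, hμ, lam, muu, ← hv, div_mul_eq_mul_div, div_mul_eq_mul_div, ← add_div,
        eq_div_iff hdet, det2]
      ring
    have e3 : v 3 = l * (z 3 - z 3) + μ * conj (z 3 - z 3) := by simp [hv, vv]
    have e2 : v 2 = l * (z 2 - z 3) + μ * conj (z 2 - z 3) := by
      refine mul_left_cancel₀ hc2 ?_
      simp only [hv, vv, ← hα, map_sub] at e0 e1 ⊢
      simp only [Fin.sum_univ_four] at hs0 hs1 hs1' hW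
      grobner
    intro i; fin_cases i <;> assumption
  refine ⟨fun i j => ?_, ?_⟩
  · have hi := hv3 i
    have hj := hv3 j
    simp only [hv, vv, ← hα, map_sub] at hi hj ⊢
    linear_combination hi - hj
  · have hzz : ∀ i, z i * conj (z i) = 1 := fun i => by
      rw [hz, conj_circ, mul_inv_cancel₀ (circ_ne_zero θ i)]
    have hζζ : ∀ i, ζ i * conj (ζ i) = 1 := fun i => by
      rw [Complex.mul_conj, Complex.normSq_eq_norm_sq, hζ]; simp
    have hWW : ∑ i, c i * ((ζ i * (1 + α * z i)) * conj (ζ i * (1 + α * z i))) = 0 := by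
      have e : ∀ i, c i * ((ζ i * (1 + α * z i)) * conj (ζ i * (1 + α * z i))) =
          (1 + α * conj α) * c i + α * (c i * z i) + conj α * (c i * conj (z i)) := by
        intro i
        simp only [map_mul, map_add, map_one]
        linear_combination (c i * (1 + α * z i) * (1 + conj α * conj (z i))) * hζζ i +
          (c i * α * conj α) * hzz i
      simp only [e, Finset.sum_add_distrib, ← Finset.mul_sum, hs0, hs1, hs1', mul_zero, add_zero]
    have hWbar : ∑ i, c i * conj (ζ i * (1 + α * z i)) = 0 := by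
      have := congrArg conj hW
      rw [map_sum, map_zero] at this
      rw [← this]
      exact Finset.sum_congr rfl fun i _ => by rw [map_mul (starRingEnd ℂ) (c i), hcr]
    have hVV : ∑ i, c i * (v i * conj (v i)) = 0 := by
      simp only [Fin.sum_univ_four, map_mul, map_add, map_sub, map_one, hv, vv, ← hα] at hs0 hW hWW hWbar ⊢
      grobner
    have hΔΔ : ∑ i, c i * ((z i - z 3) * conj (z i - z 3)) = 0 := by
      simp only [Fin.sum_univ_four, map_sub] at hs0 hs1 hs1' ⊢
      have := hzz 0; have := hzz 1; have := hzz 2; have := hzz 3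
      grobner
    have hM : ∑ i, c i * (z i - z 3) ^ 2 = mom z := by
      have hs2 := sum_coef_sq z
      simp only [Fin.sum_univ_four, ← hc] at hs0 hs1 hs2 ⊢
      grobner
    have hMbar : ∑ i, c i * conj (z i - z 3) ^ 2 = conj (mom z) := by
      rw [← hM, map_sum]
      exact Finset.sum_congr rfl fun i _ => by rw [map_mul, map_pow, hcr]
    have key : l * conj μ * mom z + conj l * μ * conj (mom z) = 0 := by
      rw [← hMbar, ← hM]
      rw [show (∑ i, c i * (v i * conj (v i))) =
          ∑ i, ((l * conj l + μ * conj μ) * (c i * ((z i - z 3) * conj (z i - z 3))) +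
            (l * conj μ * (c i * (z i - z 3) ^ 2) + conj l * μ * (c i * conj (z i - z 3) ^ 2))) from
        Finset.sum_congr rfl fun i _ => by
          rw [hv3, map_add, map_mul, map_mul, Complex.conj_conj]; ring] at hVV
      rw [Finset.sum_add_distrib, ← Finset.mul_sum, hΔΔ, mul_zero, zero_add,
        Finset.sum_add_distrib, ← Finset.mul_sum, ← Finset.mul_sum] at hVV
      exact hVV
    have := congrArg Complex.re key
    simp only [Complex.add_re, Complex.zero_re] at this
    rw [show conj l * μ * conj (mom z) = conj (l * conj μ * mom z) by simp, Complex.conj_re] at this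
    linarith

/-- The two fixed auxiliary rotations. -/
def sgn1 : Fin 4 → ℂ := ![1, 1, -1, -1]

/-- The two fixed auxiliary rotations. -/
def sgn2 : Fin 4 → ℂ := ![1, -1, -1, 1]

/-- The region in which the auxiliary rotations correct both signs of anisotropy. -/
def Region : Set (Fin 4 → ℝ) :=
  {θ | Function.Injective (circ θ) ∧ alpDen sgn1 (circ θ) ≠ 0 ∧ alpDen sgn2 (circ θ) ≠ 0 ∧
    0 < aniso sgn1 (circ θ) ∧ aniso sgn2 (circ θ) < 0}

theorem continuous_circ : Continuous circ := by
  unfold circ; fun_prop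

section cont

variable (ζ : Fin 4 → ℂ)

theorem continuousAt_coef (hd : Function.Injective (circ θ)) (i : Fin 4) :
    ContinuousAt (fun θ => coef (circ θ) i) θ := by
  have h : ∀ j, Continuous fun θ => dep (circ θ) j := by
    intro j
    have := continuous_circ
    fin_cases j <;> simp [dep] <;> fun_prop
  exact ((h i).continuousAt.div (h 3).continuousAt (dep_ne_zero (circ_ne_zero θ) hd 3))

theorem continuousAt_mom (hd : Function.Injective (circ θ)) :
    ContinuousAt (fun θ => mom (circ θ)) θ := by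
  have h : Continuous fun θ => vdm (circ θ) := by
    have := continuous_circ; simp [vdm]; fun_prop
  have h' : Continuous fun θ => dep (circ θ) 3 := by
    have := continuous_circ; simp [dep]; fun_prop
  exact h.continuousAt.div h'.continuousAt (dep_ne_zero (circ_ne_zero θ) hd 3)

theorem continuousAt_den (hd : Function.Injective (circ θ)) :
    ContinuousAt (fun θ => alpDen ζ (circ θ)) θ := by
  unfold alpDen
  refine tendsto_finsetSum _ fun i _ => ?_
  exact ((continuousAt_coef hd i).mul continuousAt_const).mul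
    ((continuous_apply i).comp continuous_circ).continuousAt

theorem continuousAt_alp (hd : Function.Injective (circ θ)) (hden : alpDen ζ (circ θ) ≠ 0) :
    ContinuousAt (fun θ => alp ζ (circ θ)) θ := by
  have hn : ContinuousAt (fun θ => -(∑ i, coef (circ θ) i * ζ i)) θ :=
    ContinuousAt.neg (tendsto_finsetSum _ fun i _ => (continuousAt_coef hd i).mul continuousAt_const)
  exact hn.div (continuousAt_den ζ hd) hden

theorem continuousAt_vv (hd : Function.Injective (circ θ)) (hden : alpDen ζ (circ θ) ≠ 0) (i : Fin 4) :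
    ContinuousAt (fun θ => vv ζ (circ θ) i) θ := by
  unfold vv
  have ha := continuousAt_alp ζ hd hden
  have hi : ∀ j, ContinuousAt (fun θ => circ θ j) θ := fun j =>
    ((continuous_apply j).comp continuous_circ).continuousAt
  have := hi i; have := hi 3
  fun_prop

theorem continuousAt_lam (hd : Function.Injective (circ θ)) (hden : alpDen ζ (circ θ) ≠ 0) :
    ContinuousAt (fun θ => lam ζ (circ θ)) θ := by
  have h0 := continuousAt_vv ζ hd hden 0
  have h1 := continuousAt_vv ζ hd hden 1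
  have := continuous_circ
  have hdet : ContinuousAt (fun θ => det2 (circ θ)) θ := by
    apply Continuous.continuousAt; unfold det2; fun_prop
  exact ContinuousAt.div (by fun_prop) hdet (det2_ne_zero hd)

theorem continuousAt_muu (hd : Function.Injective (circ θ)) (hden : alpDen ζ (circ θ) ≠ 0) :
    ContinuousAt (fun θ => muu ζ (circ θ)) θ := by
  have h0 := continuousAt_vv ζ hd hden 0
  have h1 := continuousAt_vv ζ hd hden 1
  have := continuous_circ
  have hdet : ContinuousAt (fun θ => det2 (circ θ)) θ := by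
    apply Continuous.continuousAt; unfold det2; fun_prop
  exact ContinuousAt.div (by fun_prop) hdet (det2_ne_zero hd)

theorem continuousAt_aniso (hd : Function.Injective (circ θ)) (hden : alpDen ζ (circ θ) ≠ 0) :
    ContinuousAt (fun θ => aniso ζ (circ θ)) θ := by
  unfold aniso
  have := continuousAt_lam ζ hd hden
  have := continuousAt_muu ζ hd hden
  have := continuousAt_mom hd
  fun_prop

theorem eventually_injective (hd : Function.Injective (circ θ)) :
    ∀ᶠ θ' in 𝓝 θ, Function.Injective (circ θ') := by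
  have : ∀ i j : Fin 4, i ≠ j → ∀ᶠ θ' in 𝓝 θ, circ θ' i ≠ circ θ' j := fun i j hij =>
    ((((continuous_apply i).comp continuous_circ).continuousAt.ne_iff_eventually_ne
      ((continuous_apply j).comp continuous_circ).continuousAt).mp (hd.ne hij)).filter_mono le_rfl
  have h := fun i j => eventually_all.mpr fun (hij : i ≠ j) => this i j hij
  filter_upwards [eventually_all.mpr fun i => eventually_all.mpr fun j => h i j] with θ' hθ' i j e
  by_contra hij
  exact hθ' i j hij e

end cont

theorem isOpen_region : IsOpen Region := by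
  rw [isOpen_iff_eventually]
  rintro θ ⟨hd, h1, h2, h3, h4⟩
  filter_upwards [eventually_injective hd, (continuousAt_den sgn1 hd).eventually_ne h1,
    (continuousAt_den sgn2 hd).eventually_ne h2,
    (continuousAt_aniso sgn1 hd h1).eventually_const_lt h3,
    (continuousAt_aniso sgn2 hd h2).eventually_lt_const h4] with θ' a b c d e
  exact ⟨a, b, c, d, e⟩

/-- The square. -/
noncomputable def square : Fin 4 → ℝ := ![0, Real.pi / 2, Real.pi, -(Real.pi / 2)]

theorem circ_square : circ square = ![1, Complex.I, -1, -Complex.I] := by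
  funext i
  fin_cases i <;> simp [circ, square, Complex.exp_neg]

theorem square_mem_region : square ∈ Region := by
  have q0 : circ square 0 = 1 := by simp [circ_square]
  have q1 : circ square 1 = Complex.I := by simp [circ_square]
  have q2 : circ square 2 = -1 := by rw [circ_square]; rfl
  have q3 : circ square 3 = -Complex.I := by rw [circ_square]; rfl
  have d0 : dep (circ square) 0 = -4 * Complex.I := by
    apply Complex.ext <;> simp [dep, q1, q2, q3, q0] <;> norm_num
  have d1 : dep (circ square) 1 = 4 * Complex.I := by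
    apply Complex.ext <;> simp [dep, q1, q2, q3, q0] <;> norm_num
  have d2 : dep (circ square) 2 = -4 * Complex.I := by
    apply Complex.ext <;> simp [dep, q1, q2, q3, q0] <;> norm_num
  have d3 : dep (circ square) 3 = 4 * Complex.I := by
    apply Complex.ext <;> simp [dep, q1, q2, q3, q0] <;> norm_num
  have hv : vdm (circ square) = -16 * Complex.I := by
    apply Complex.ext <;> simp [vdm, q1, q2, q3, q0] <;> norm_num
  have h4 : (4:ℂ) * Complex.I ≠ 0 := mul_ne_zero (by norm_num) Complex.I_ne_zero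
  have c0 : coef (circ square) 0 = -1 := by rw [coef, d0, d3]; field_simp
  have c1 : coef (circ square) 1 = 1 := by rw [coef, d1, d3, div_self h4]
  have c2 : coef (circ square) 2 = -1 := by rw [coef, d2, d3]; field_simp
  have c3 : coef (circ square) 3 = 1 := by rw [coef, d3, div_self h4]
  have hM : mom (circ square) = -4 := by rw [mom, hv, d3]; field_simp; ring
  have hdet : det2 (circ square) = -4 * Complex.I := by
    apply Complex.ext <;> simp [det2, q0, q1, q3] <;> norm_num
  have hden1 : alpDen sgn1 (circ square) = -2 + 2 * Complex.I := by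
    simp [alpDen, Fin.sum_univ_four, c0, c1, c2, c3, q0, q1, q2, q3, sgn1]; ring
  have hden2 : alpDen sgn2 (circ square) = -2 - 2 * Complex.I := by
    simp [alpDen, Fin.sum_univ_four, c0, c1, c2, c3, q0, q1, q2, q3, sgn2]; ring
  have ha1 : alp sgn1 (circ square) = 0 := by
    simp [alp, Fin.sum_univ_four, c0, c1, c2, c3, sgn1]
  have ha2 : alp sgn2 (circ square) = 0 := by
    simp [alp, Fin.sum_univ_four, c0, c1, c2, c3, sgn2]
  refine ⟨?_, ?_, ?_, ?_, ?_⟩
  · rw [circ_square]
    intro a b h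
    fin_cases a <;> fin_cases b <;> simp [Complex.ext_iff] at h ⊢ <;> norm_num at h
  · rw [hden1]; simp [Complex.ext_iff]
  · rw [hden2]; simp [Complex.ext_iff]
  · rw [aniso, lam, muu, vv, vv, ha1]
    simp [hdet, hM, sgn1, q0, q1, q3, Complex.div_re, Complex.div_im,
      Complex.normSq_apply]
    norm_num
  · rw [aniso, lam, muu, vv, vv, ha2]
    simp [hdet, hM, sgn2, q0, q1, q3, Complex.div_re, Complex.div_im,
      Complex.normSq_apply]
    norm_num

theorem normSq_affine (l μ w : ℂ) :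
    ‖l * w + μ * conj w‖ ^ 2 = (‖l‖ ^ 2 + ‖μ‖ ^ 2) * ‖w‖ ^ 2 + 2 * (l * conj μ * w ^ 2).re := by
  simp only [Complex.sq_norm, Complex.normSq_apply]
  simp [Complex.mul_re, Complex.mul_im, pow_two]
  ring

/-- Near a configuration with dyadic angles in the region there are rotation pairs with arbitrarily
small ratio. -/
theorem eventually_hasPair {m : ℕ} (hm : 1 ≤ m) {θ₀ : Fin 4 → ℝ} (hθ : θ₀ ∈ Region)
    (g₀ : Fin 4 → ZMod (2 ^ m)) (hg : ∀ i, chr (g₀ i) = circ θ₀ i) {η : ℝ} (hη : 0 < η) :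
    ∀ᶠ θ in 𝓝 θ₀, ∃ ε σ, 0 ≤ ε ∧ ε < η * σ ∧ HasPair (circ θ) m ε σ := by
  obtain ⟨hd, h1, h2, h3, h4⟩ := hθ
  set ζ : Fin 4 → ℂ := fun i => chr (g₀ i) with hζ
  have hζ0 : ζ = circ θ₀ := funext hg
  have hM0 : mom (circ θ₀) ≠ 0 := by
    have h := dep_ne_zero (circ_ne_zero θ₀) hd
    have hs : ∀ a b : Fin 4, a ≠ b → circ θ₀ a - circ θ₀ b ≠ 0 := fun a b hab =>
      sub_ne_zero.mpr (hd.ne hab)
    simp [mom, vdm, h 3, hs 0 1 (by decide), hs 0 2 (by decide), hs 0 3 (by decide),
      hs 1 2 (by decide), hs 1 3 (by decide), hs 2 3 (by decide)]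
  have hden0 : alpDen ζ (circ θ₀) = mom (circ θ₀) := by
    rw [hζ0, alpDen, ← sum_coef_sq]
    exact Finset.sum_congr rfl fun i _ => by ring
  have hden0' : alpDen ζ (circ θ₀) ≠ 0 := hden0 ▸ hM0
  have halp0 : alp ζ (circ θ₀) = 0 := by simp [alp, hζ0, sum_coef_mul]
  have hdet0 := det2_ne_zero hd
  have hlam0 : lam ζ (circ θ₀) = 1 := by
    rw [lam, vv, vv, halp0, hζ0]
    simp only [zero_mul, add_zero, mul_one]
    rw [div_eq_one_iff_eq hdet0, det2]; ring
  have hmuu0 : muu ζ (circ θ₀) = 0 := by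
    rw [muu, vv, vv, halp0, hζ0]
    simp only [zero_mul, add_zero, mul_one]
    rw [div_eq_zero_iff]; left; ring
  let w1 : (Fin 4 → ℝ) → ℝ := fun θ => max 0 (-aniso ζ (circ θ)) / aniso sgn1 (circ θ)
  let w2 : (Fin 4 → ℝ) → ℝ := fun θ => max 0 (aniso ζ (circ θ)) / (-aniso sgn2 (circ θ))
  obtain ⟨E, hEdef⟩ : ∃ E : (Fin 4 → ℝ) → ℝ, ∀ θ, E θ = ‖alp ζ (circ θ)‖ ^ 2 + w1 θ * ‖alp sgn1 (circ θ)‖ ^ 2 +
    w2 θ * ‖alp sgn2 (circ θ)‖ ^ 2 := ⟨_, fun _ => rfl⟩
  obtain ⟨S, hSdef⟩ : ∃ S : (Fin 4 → ℝ) → ℝ, ∀ θ, S θ = (‖lam ζ (circ θ)‖ ^ 2 + ‖muu ζ (circ θ)‖ ^ 2) +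
    w1 θ * (‖lam sgn1 (circ θ)‖ ^ 2 + ‖muu sgn1 (circ θ)‖ ^ 2) +
    w2 θ * (‖lam sgn2 (circ θ)‖ ^ 2 + ‖muu sgn2 (circ θ)‖ ^ 2) := ⟨_, fun _ => rfl⟩
  have c0 := continuousAt_aniso ζ hd hden0'
  have c1 := continuousAt_aniso sgn1 hd h1
  have c2 := continuousAt_aniso sgn2 hd h2
  have cw1 : ContinuousAt w1 θ₀ := (continuousAt_const.sup c0.neg).div c1 h3.ne'
  have cw2 : ContinuousAt w2 θ₀ := (continuousAt_const.sup c0).div c2.neg (neg_ne_zero.mpr h4.ne)
  have hcES : ContinuousAt (fun θ => η * S θ - E θ) θ₀ := by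
    have := continuousAt_alp ζ hd hden0'
    have := continuousAt_alp sgn1 hd h1
    have := continuousAt_alp sgn2 hd h2
    have := continuousAt_lam ζ hd hden0'
    have := continuousAt_lam sgn1 hd h1
    have := continuousAt_lam sgn2 hd h2
    have := continuousAt_muu ζ hd hden0'
    have := continuousAt_muu sgn1 hd h1
    have := continuousAt_muu sgn2 hd h2
    simp only [hSdef, hEdef]
    fun_prop
  have hpos : 0 < η * S θ₀ - E θ₀ := by
    have ha : aniso ζ (circ θ₀) = 0 := by simp [aniso, hmuu0]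
    simp [hSdef, hEdef, w1, w2, halp0, hlam0, hmuu0, ha, hη]
  filter_upwards [eventually_injective hd, (continuousAt_den ζ hd).eventually_ne hden0',
    (continuousAt_den sgn1 hd).eventually_ne h1, (continuousAt_den sgn2 hd).eventually_ne h2,
    c1.eventually_const_lt h3, c2.eventually_lt_const h4,
    hcES.eventually_const_lt hpos] with θ hd' hd0 hd1 hd2 ht1 ht2 hlt
  refine ⟨E θ, S θ, ?_, sub_pos.mp hlt, ?_⟩
  · have := ht1; have hw1 : 0 ≤ w1 θ := div_nonneg (le_max_left _ _) ht1.le
    have hw2 : 0 ≤ w2 θ := div_nonneg (le_max_left _ _) (by linarith)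
    rw [hEdef]
    exact add_nonneg (add_nonneg (sq_nonneg _) (mul_nonneg hw1 (sq_nonneg _)))
      (mul_nonneg hw2 (sq_nonneg _))
  set z := circ θ with hz
  let Z : Fin 3 → Fin 4 → ℂ := ![ζ, sgn1, sgn2]
  let w : Fin 3 → ℝ := ![1, w1 θ, w2 θ]
  let half : ZMod (2 ^ m) := ((2 ^ (m - 1) : ℕ) : ZMod (2 ^ m))
  let G : Fin 4 → Fin 3 → ZMod (2 ^ m) := fun i =>
    ![g₀ i, ![0, 0, half, half] i, ![0, half, half, 0] i]
  have hhalf : chr half = -1 := by
    rw [chr, ZMod.toCircle_natCast, ← Complex.exp_pi_mul_I]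
    congr 1
    obtain ⟨m', rfl⟩ := Nat.exists_eq_add_of_le hm
    rw [Nat.add_sub_cancel_left, pow_add]
    push_cast
    field_simp
  have hzero : chr (0 : ZMod (2 ^ m)) = 1 := by simp [chr]
  have hG : ∀ i r, chr (G i r) = Z r i := by
    intro i r
    fin_cases r <;> fin_cases i <;> simp [G, Z, ζ, sgn1, sgn2, hhalf, hzero]
  have hw : ∀ r, 0 ≤ w r := by
    intro r
    fin_cases r <;> simp [w]
    · exact div_nonneg (le_max_left _ _) ht1.le
    · exact div_nonneg (le_max_left _ _) (by linarith)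
  have hZn : ∀ r i, ‖Z r i‖ = 1 := fun r i => by rw [← hG]; exact norm_chr _
  have hZd : ∀ r, alpDen (Z r) z ≠ 0 := by intro r; fin_cases r <;> simp [Z, hd0, hd1, hd2]
  refine ⟨fun i r => (Real.sqrt (w r) : ℂ) * (1 + alp (Z r) z * z i), G, ?_, ?_⟩
  · intro i j
    have e : ∀ r, ‖(Real.sqrt (w r) : ℂ) * (1 + alp (Z r) z * z i) -
        (Real.sqrt (w r) : ℂ) * (1 + alp (Z r) z * z j)‖ ^ 2 =
        w r * ‖alp (Z r) z‖ ^ 2 * ‖z i - z j‖ ^ 2 := by
      intro r
      rw [show (Real.sqrt (w r) : ℂ) * (1 + alp (Z r) z * z i) -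
        (Real.sqrt (w r) : ℂ) * (1 + alp (Z r) z * z j) =
          (Real.sqrt (w r) : ℂ) * (alp (Z r) z * (z i - z j)) by ring]
      rw [norm_mul, norm_mul, Complex.norm_real, Real.norm_eq_abs, mul_pow, mul_pow, sq_abs,
        Real.sq_sqrt (hw r), mul_assoc]
    simp only [e, Fin.sum_univ_three]
    simp [Z, w, hEdef, ← hz]
    ring
  · intro i j
    have hK : ∀ r, ∃ t : ℝ, t = aniso (Z r) z ∧
        lam (Z r) z * conj (muu (Z r) z) = (t : ℂ) * Complex.I / mom z := by
      intro r
      refine ⟨_, rfl, ?_⟩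
      have hM : mom z ≠ 0 := by
        have h := dep_ne_zero (circ_ne_zero θ) hd'
        have hs : ∀ a b : Fin 4, a ≠ b → circ θ a - circ θ b ≠ 0 := fun a b hab =>
          sub_ne_zero.mpr (hd'.ne hab)
        simp [z, mom, vdm, h 3, hs 0 1 (by decide), hs 0 2 (by decide), hs 0 3 (by decide),
          hs 1 2 (by decide), hs 1 3 (by decide), hs 2 3 (by decide)]
      rw [eq_div_iff hM]
      apply Complex.ext
      · simpa using (component_spec hd' (Z r) (hZn r) (hZd r)).2
      · simp [aniso]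
    choose t ht hK using hK
    have hbal : ∑ r, w r * t r = 0 := by
      simp only [Fin.sum_univ_three, ht]
      simp [w, Z, w1, w2, ← hz]
      rw [div_mul_cancel₀ _ ht1.ne', div_neg, neg_mul, div_mul_cancel₀ _ ht2.ne]
      rcases le_total 0 (aniso ζ z) with h | h
      · rw [max_eq_left (by linarith : -aniso ζ z ≤ 0), max_eq_right h]; ring
      · rw [max_eq_right (by linarith : 0 ≤ -aniso ζ z), max_eq_left h]; ring
    have e : ∀ r, ‖chr (G i r) * ((Real.sqrt (w r) : ℂ) * (1 + alp (Z r) z * z i)) -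
        chr (G j r) * ((Real.sqrt (w r) : ℂ) * (1 + alp (Z r) z * z j))‖ ^ 2 =
        w r * (‖lam (Z r) z‖ ^ 2 + ‖muu (Z r) z‖ ^ 2) * ‖z i - z j‖ ^ 2 +
          (w r * t r) * (2 * (Complex.I / mom z * (z i - z j) ^ 2).re) := by
      intro r
      rw [hG, hG]
      rw [show Z r i * ((Real.sqrt (w r) : ℂ) * (1 + alp (Z r) z * z i)) -
        Z r j * ((Real.sqrt (w r) : ℂ) * (1 + alp (Z r) z * z j)) =
          (Real.sqrt (w r) : ℂ) * (Z r i * (1 + alp (Z r) z * z i) -
            Z r j * (1 + alp (Z r) z * z j)) by ring]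
      rw [(component_spec hd' (Z r) (hZn r) (hZd r)).1 i j, norm_mul, mul_pow, Complex.norm_real,
        Real.norm_eq_abs, sq_abs, Real.sq_sqrt (hw r), normSq_affine, hK r]
      rw [show (t r : ℂ) * Complex.I / mom z * (z i - z j) ^ 2 =
          (t r : ℂ) * (Complex.I / mom z * (z i - z j) ^ 2) by ring, Complex.re_ofReal_mul]
      ring
    simp only [e, Finset.sum_add_distrib, ← Finset.sum_mul, hbal, zero_mul, add_zero]
    congr 1
    simp [Fin.sum_univ_three, Z, w, hSdef, ← hz]

end Vale.Agent.P058
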