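import Mathlib
import Vale.Agent.P058.Defs
import Vale.Agent.P058.Quad

/-! An obstruction to subtransitivity for generic cyclic quadrilaterals. -/

open ComplexConjugate

namespace Vale.Agent.P058

/-- A tuple of three permutations with no proper invariant subset. -/
def Conn {n : ℕ} (π : Fin 4 → Equiv.Perm (Fin n)) : Prop :=
  ∀ S : Finset (Fin n), S.Nonempty → (∀ i, ∀ h ∈ S, π i h ∈ S) → S = Finset.univ

/-- The matrix `∑ cᵢ Pᵢ + J`. -/
def pmat {n : ℕ} {R : Type} [CommRing R] (π : Fin 4 → Equiv.Perm (Fin n)) (c : Fin 4 → R) :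
    Matrix (Fin n) (Fin n) R :=
  fun h j => (∑ i, if π i h = j then c i else 0) + 1

theorem pmat_mulVec {n : ℕ} {R : Type} [CommRing R] (π : Fin 4 → Equiv.Perm (Fin n)) (c : Fin 4 → R)
    (φ : Fin n → R) (h : Fin n) :
    Matrix.mulVec (pmat π c) φ h = (∑ i, c i * φ (π i h)) + ∑ j, φ j := by
  simp only [Matrix.mulVec, dotProduct, pmat, add_mul, one_mul, Finset.sum_add_distrib,
    Finset.sum_mul, ite_mul, zero_mul]
  rw [Finset.sum_comm]
  simp

theorem map_det_pmat {n : ℕ} {R S : Type} [CommRing R] [CommRing S] (f : R →+* S)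
    (π : Fin 4 → Equiv.Perm (Fin n)) (c : Fin 4 → R) :
    f (pmat π c).det = (pmat π (fun i => f (c i))).det := by
  rw [RingHom.map_det]; congr 1
  ext h j; simp [pmat, apply_ite f]

/-- At the coefficients `(1, 1, 1, -3)` the matrix is invertible. -/
theorem det_pmat_centroid {n : ℕ} (π : Fin 4 → Equiv.Perm (Fin n)) (hπ : π 3 = 1) (hc : Conn π) :
    (pmat π (![1, 1, 1, -3] : Fin 4 → ℝ)).det ≠ 0 := by
  intro h
  obtain ⟨φ, hφ0, hφ⟩ := Matrix.exists_mulVec_eq_zero_iff.mpr h
  have e : ∀ x, φ (π 0 x) + φ (π 1 x) + φ (π 2 x) - 3 * φ x + ∑ j, φ j = 0 := by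
    intro x
    have := congrFun hφ x
    rw [pmat_mulVec] at this
    simp [Fin.sum_univ_four, hπ] at this
    linarith
  have hn : n ≠ 0 := by rintro rfl; exact hφ0 (funext fun x => x.elim0)
  have hsum : ∑ j, φ j = 0 := by
    have := Finset.sum_eq_zero (s := Finset.univ) fun x _ => e x
    simp only [Finset.sum_add_distrib, Finset.sum_sub_distrib, Equiv.sum_comp, ← Finset.mul_sum,
      Finset.sum_const, Finset.card_univ, Fintype.card_fin, nsmul_eq_mul] at this
    have h2 : (n : ℝ) * ∑ j, φ j = 0 := by linarith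
    exact (mul_eq_zero.mp h2).resolve_left (Nat.cast_ne_zero.mpr hn)
  haveI : Nonempty (Fin n) := ⟨⟨0, Nat.pos_of_ne_zero hn⟩⟩
  obtain ⟨x₀, hx₀⟩ := Finite.exists_max φ
  have hclosed : ∀ i, ∀ x ∈ Finset.univ.filter (fun x => φ x = φ x₀),
      π i x ∈ Finset.univ.filter (fun x => φ x = φ x₀) := by
    intro i x hx
    simp only [Finset.mem_filter, Finset.mem_univ, true_and] at hx ⊢
    have := e x; have := hx₀ (π 0 x); have := hx₀ (π 1 x); have := hx₀ (π 2 x)
    fin_cases i <;> simp [hπ] <;> linarith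
  have hall := hc _ ⟨x₀, by simp⟩ hclosed
  have hconst : ∀ x, φ x = φ x₀ := fun x =>
    (Finset.mem_filter.mp ((Finset.ext_iff.mp hall x).mpr (Finset.mem_univ x))).2
  refine hφ0 (funext fun x => ?_)
  rw [Finset.sum_congr rfl fun j _ => hconst j, Finset.sum_const, Finset.card_univ,
    Fintype.card_fin, nsmul_eq_mul] at hsum
  rw [hconst, (mul_eq_zero.mp hsum).resolve_left (Nat.cast_ne_zero.mpr hn)]; rfl

/-- Distances determine the norm of an affine dependence. -/
theorem norm_sq_sum_smul {E : Type} [NormedAddCommGroup E] [InnerProductSpace ℝ E] (c : Fin 4 → ℝ)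
    (hc : ∑ i, c i = 0) (x : Fin 4 → E) :
    ‖∑ i, c i • x i‖ ^ 2 = -(1 / 2) * ∑ i, ∑ j, c i * c j * ‖x i - x j‖ ^ 2 := by
  rw [← real_inner_self_eq_norm_sq]
  simp only [inner_sum, sum_inner, real_inner_smul_left, real_inner_smul_right, norm_sub_sq_real,
    mul_add, mul_sub, Finset.sum_add_distrib, Finset.sum_sub_distrib]
  have h1 : ∑ i, ∑ j, c i * c j * ‖x i‖ ^ 2 = 0 := by
    have : ∀ i, ∑ j, c i * c j * ‖x i‖ ^ 2 = c i * ‖x i‖ ^ 2 * ∑ j, c j := fun i => by
      rw [Finset.mul_sum]; exact Finset.sum_congr rfl fun j _ => by ring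
    simp [this, hc]
  have h2 : ∑ i, ∑ j, c i * c j * ‖x j‖ ^ 2 = 0 := by
    rw [Finset.sum_comm]
    have : ∀ j, ∑ i, c i * c j * ‖x j‖ ^ 2 = c j * ‖x j‖ ^ 2 * ∑ i, c i := fun i => by
      rw [Finset.mul_sum]; exact Finset.sum_congr rfl fun j _ => by ring
    simp [this, hc]
  rw [h1, h2, mul_zero, add_zero, zero_sub, Finset.mul_sum, ← Finset.sum_neg_distrib, Finset.sum_comm]
  refine Finset.sum_congr rfl fun i _ => ?_
  rw [Finset.mul_sum, ← Finset.sum_neg_distrib]
  exact Finset.sum_congr rfl fun j _ => by rw [real_inner_comm]; ring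

/-- The four points as vectors of the Euclidean plane. -/
noncomputable def planePt (θ : Fin 4 → ℝ) (i : Fin 4) : EuclideanSpace ℝ (Fin 2) :=
  !₂[(circ θ i).re, (circ θ i).im]

theorem dist_planePt (θ : Fin 4 → ℝ) (i j : Fin 4) :
    dist (planePt θ i) (planePt θ j) = ‖circ θ i - circ θ j‖ := by
  rw [← pow_left_inj₀ dist_nonneg (norm_nonneg _) two_ne_zero, dist_eq_norm,
    EuclideanSpace.real_norm_sq_eq, Complex.sq_norm, Complex.normSq_apply]
  simp [planePt, Fin.sum_univ_two, sq]

/-- A finite subtransitive cyclic quadrilateral has degenerate dependence coefficients. -/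
theorem exists_degenerate {θ : Fin 4 → ℝ} (hd : Function.Injective (circ θ))
    (hs : IsSubtransitive (Set.range (planePt θ))) :
    ∃ (n : ℕ) (π : Fin 4 → Equiv.Perm (Fin n)), π 3 = 1 ∧ Conn π ∧
      ∀ s : ℂ, (pmat π (fun i => s * coef (circ θ) i)).det = 0 := by
  classical
  obtain ⟨n, X, hX, htr, φ, hφ, hmem⟩ := hs
  haveI : Fintype X := hX.fintype
  let p : Fin 4 → X := fun i => ⟨φ ⟨planePt θ i, i, rfl⟩, hmem _⟩
  have hp : ∀ i j, dist (p i : EuclideanSpace ℝ (Fin n)) (p j) = ‖circ θ i - circ θ j‖ := by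
    intro i j; simp only [p, hφ, dist_planePt]
  let c : Fin 4 → ℝ := fun i => (coef (circ θ) i).re
  have hcC : ∀ i, (c i : ℂ) = coef (circ θ) i := fun i =>
    (Complex.conj_eq_iff_re.mp (conj_coef hd i))
  have hc0 : ∑ i, c i = 0 := by
    have := congrArg Complex.re (sum_coef (circ θ))
    simpa [c, Complex.re_sum] using this
  have hdep : ∑ i, c i • circ θ i = 0 := by
    simp only [Complex.real_smul, hcC]; exact sum_coef_mul _
  let T : Subgroup (Equiv.Perm X) :=
    { carrier := {σ | ∀ x y : X, dist (σ x) (σ y) = dist x y}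
      mul_mem' := fun {a b} ha hb x y => by simp [ha _ _, hb _ _]
      one_mem' := fun x y => by simp
      inv_mem' := fun {a} ha x y => by
        have := ha (a⁻¹ x) (a⁻¹ y)
        simpa using this.symm }
  have hk : ∀ i, ∃ σ ∈ T, σ (p 3) = p i := by
    intro i
    obtain ⟨e, heX, hei⟩ := htr _ (p 3).2 _ (p i).2
    let f : X → X := fun x => ⟨e x, heX.subset (Set.mem_image_of_mem e x.2)⟩
    have hf : Function.Injective f := fun a b h => Subtype.ext (e.injective (congrArg Subtype.val h))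
    refine ⟨Equiv.ofBijective f (Finite.injective_iff_bijective.mp hf), fun x y => ?_, Subtype.ext hei⟩
    exact e.isometry.dist_eq _ _
  choose k0 hk0T hk0 using hk
  let k : Fin 4 → Equiv.Perm X := fun i => if i = 3 then 1 else k0 i
  have hkp : ∀ i, k i (p 3) = p i := by
    intro i
    by_cases h : i = 3
    · simp [k, h]
    · simp [k, h, hk0]
  let K : Subgroup (Equiv.Perm X) := Subgroup.closure (Set.range k)
  have hKT : ∀ h ∈ K, h ∈ T := fun h hh => (Subgroup.closure_le T).mpr (by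
    rintro _ ⟨i, rfl⟩
    by_cases h : i = 3
    · simp [k, h]
    · simp [k, h, hk0T]) hh
  let kk : Fin 4 → K := fun i => ⟨k i, Subgroup.subset_closure ⟨i, rfl⟩⟩
  haveI : Fintype K := Fintype.ofFinite K
  let e : K ≃ Fin (Fintype.card K) := Fintype.equivFin K
  let π : Fin 4 → Equiv.Perm (Fin (Fintype.card K)) := fun i =>
    (e.symm.trans (Equiv.mulRight (kk i))).trans e
  refine ⟨Fintype.card K, π, ?_, ?_, fun s => ?_⟩
  · ext h; simp [π, show kk 3 = 1 from Subtype.ext (by simp [kk, k])]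
  · intro S hS hclosed
    obtain ⟨h₀, hh₀⟩ := hS
    let H : Submonoid K :=
      { carrier := {g | ∀ h ∈ S, e (e.symm h * g) ∈ S}
        one_mem' := fun h hh => by simpa using hh
        mul_mem' := fun {a b} ha hb h hh => by simpa [mul_assoc] using hb _ (ha h hh) }
    have hH : ∀ g : K, g ∈ H := by
      have hgen : Subgroup.closure (Set.range kk) = ⊤ := by
        rw [← Subgroup.closure_closure_coe_preimage (k := Set.range k)]
        congr 1
        ext g
        constructor
        · rintro ⟨i, rfl⟩; exact ⟨i, rfl⟩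
        · rintro ⟨i, hi⟩; exact ⟨i, Subtype.ext hi⟩
      intro g
      have hg : g ∈ Submonoid.closure (Set.range kk) := by
        rw [← Subgroup.closure_toSubmonoid_of_finite, hgen]; trivial
      refine (Submonoid.closure_le (S := H)).mpr ?_ hg
      rintro _ ⟨i, rfl⟩ h hh
      exact hclosed i h hh
    refine Finset.eq_univ_of_forall fun h => ?_
    simpa using hH ((e.symm h₀)⁻¹ * e.symm h) h₀ hh₀
  · have hrel : ∀ h : K, ∑ i, c i • ((h * kk i : K).1 (p 3) : EuclideanSpace ℝ (Fin n)) = 0 := by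
      intro h
      have hd' : ∀ i j, ‖((h * kk i : K).1 (p 3) : EuclideanSpace ℝ (Fin n)) - (h * kk j : K).1 (p 3)‖
          = ‖circ θ i - circ θ j‖ := by
        intro i j
        rw [← dist_eq_norm]
        show dist ((h.1 * k i) (p 3)) ((h.1 * k j) (p 3)) = _
        rw [Equiv.Perm.mul_apply, Equiv.Perm.mul_apply, hkp, hkp, hKT _ h.2]
        exact hp i j
      rw [← norm_eq_zero, ← pow_eq_zero_iff two_ne_zero, norm_sq_sum_smul c hc0]
      simp only [hd']
      rw [← norm_sq_sum_smul c hc0, hdep]; simp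
    let v : K → EuclideanSpace ℝ (Fin n) := fun h => (h.1 (p 3) : EuclideanSpace ℝ (Fin n))
    set m := ((Fintype.card K : ℝ))⁻¹ • ∑ h, v h with hm
    obtain ⟨h₁, h₂, hne⟩ : ∃ h₁ h₂ : K, v h₁ ≠ v h₂ := by
      refine ⟨kk 0, kk 3, fun h => ?_⟩
      have h' : (p 0 : EuclideanSpace ℝ (Fin n)) = p 3 := by
        simpa [v, kk, hkp] using h
      have := hp 0 3
      rw [h', dist_self] at this
      exact absurd (hd (sub_eq_zero.mp (norm_eq_zero.mp this.symm))) (by decide)
    obtain ⟨d, hd'⟩ : ∃ d, v h₁ d ≠ v h₂ d := by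
      by_contra hcon
      simp only [not_exists, not_not] at hcon
      exact hne (PiLp.ext hcon)
    let f : Fin (Fintype.card K) → ℂ := fun j => ((v (e.symm j) d - m d : ℝ) : ℂ)
    have hf0 : f ≠ 0 := by
      intro hz
      have a1 := congrFun hz (e h₁)
      have a2 := congrFun hz (e h₂)
      simp only [f, Equiv.symm_apply_apply, Pi.zero_apply, Complex.ofReal_eq_zero] at a1 a2
      exact hd' (by linarith)
    refine Matrix.exists_mulVec_eq_zero_iff.mp ⟨f, hf0, ?_⟩
    funext j
    rw [pmat_mulVec]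
    have s1 : ∑ j, f j = 0 := by
      simp only [f, ← Complex.ofReal_sum]
      rw [Equiv.sum_comp e.symm (fun h => v h d - m d), Finset.sum_sub_distrib, Finset.sum_const,
        Finset.card_univ, nsmul_eq_mul]
      have : m d = ((Fintype.card K : ℝ))⁻¹ * ∑ h, v h d := by simp [hm]
      rw [this, mul_inv_cancel_left₀ (Nat.cast_ne_zero.mpr Fintype.card_ne_zero), sub_self,
        Complex.ofReal_zero]
    have s2 : ∑ i, c i * (v (e.symm j * kk i) d - m d) = 0 := by
      have := congrArg (fun y : EuclideanSpace ℝ (Fin n) => y d) (hrel (e.symm j))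
      simp only [WithLp.ofLp_sum, WithLp.ofLp_smul, Finset.sum_apply, Pi.smul_apply, smul_eq_mul,
        WithLp.ofLp_zero, Pi.zero_apply] at this
      simp only [mul_sub, Finset.sum_sub_distrib, ← Finset.sum_mul, hc0, zero_mul, sub_zero]
      exact this
    rw [s1, add_zero]
    have : ∀ i, s * coef (circ θ) i * f (π i j) =
        s * ((c i * (v (e.symm j * kk i) d - m d) : ℝ) : ℂ) := by
      intro i
      simp [f, π, ← hcC, mul_assoc]
    simp only [this, ← Finset.mul_sum, ← Complex.ofReal_sum, s2, Complex.ofReal_zero, mul_zero,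
      Pi.zero_apply]

end Vale.Agent.P058
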