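import Mathlib
import Vale.Agent.P058.NotSubtransitive

/-! A Ramsey quadrilateral which is not subtransitive. -/

open Topology Filter

namespace Vale.Agent.P058

/-- The threshold of `exists_threshold` for four points. -/
noncomputable def thr (k m : ℕ) : ℝ := (exists_threshold 4 k m).choose

theorem thr_pos (k m : ℕ) : 0 < thr k m := (exists_threshold 4 k m).choose_spec.1

/-- Parameters admitting a rotation pair good enough for `k` colours. -/
def Good (k : ℕ) : Set (Fin 4 → ℝ) :=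
  interior {θ | ∃ m ε σ, 0 ≤ ε ∧ ε < thr k m * σ ∧ HasPair (circ θ) m ε σ}

theorem chr_dyadic {m : ℕ} (g : ℤ) :
    chr ((g : ZMod (2 ^ m))) = Complex.exp (((2 * Real.pi * g / 2 ^ m : ℝ) : ℂ) * Complex.I) := by
  rw [chr, ZMod.toCircle_intCast]
  congr 1
  push_cast
  ring

/-- Dyadic angles are dense. -/
theorem exists_dyadic_near (O : Set (Fin 4 → ℝ)) (hO : IsOpen O) (hne : O.Nonempty) :
    ∃ (m : ℕ) (g : Fin 4 → ℤ), 1 ≤ m ∧ (fun i => 2 * Real.pi * (g i : ℝ) / 2 ^ m) ∈ O := by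
  obtain ⟨θ, hθ⟩ := hne
  obtain ⟨δ, hδ, hball⟩ := Metric.isOpen_iff.mp hO θ hθ
  obtain ⟨m, hm⟩ := exists_pow_lt_of_lt_one (show 0 < δ / (2 * Real.pi) by positivity)
    (show (1:ℝ) / 2 < 1 by norm_num)
  refine ⟨m + 1, fun i => ⌊θ i * 2 ^ (m + 1) / (2 * Real.pi)⌋, by omega, hball ?_⟩
  rw [Metric.mem_ball, dist_pi_lt_iff hδ]
  intro i
  have h1 := Int.floor_le (θ i * 2 ^ (m + 1) / (2 * Real.pi))
  have h2 := Int.lt_floor_add_one (θ i * 2 ^ (m + 1) / (2 * Real.pi))
  have hp : 0 < 2 * Real.pi := by positivity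
  have hq : (0:ℝ) < 2 ^ (m + 1) := by positivity
  rw [le_div_iff₀ hp] at h1
  rw [div_lt_iff₀ hp] at h2
  have hstep : 2 * Real.pi / 2 ^ (m + 1) < δ := by
    rw [div_lt_iff₀ hq]
    rw [lt_div_iff₀ hp, one_div, inv_pow, inv_mul_eq_div, div_lt_iff₀ (by positivity)] at hm
    have : δ * 2 ^ m ≤ δ * 2 ^ (m + 1) := by
      gcongr <;> norm_num
    linarith
  rw [Real.dist_eq, abs_lt]
  constructor
  · have : θ i - 2 * Real.pi / 2 ^ (m + 1) < 2 * Real.pi * (⌊θ i * 2 ^ (m + 1) / (2 * Real.pi)⌋ : ℝ) / 2 ^ (m + 1) := by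
      rw [sub_lt_iff_lt_add, ← add_div, lt_div_iff₀ hq]
      linarith
    linarith
  · have : 2 * Real.pi * (⌊θ i * 2 ^ (m + 1) / (2 * Real.pi)⌋ : ℝ) / 2 ^ (m + 1) ≤ θ i := by
      rw [div_le_iff₀ hq]
      linarith
    linarith

/-- Within the region, `Good k` is dense. -/
theorem good_meets (k : ℕ) (O : Set (Fin 4 → ℝ)) (hO : IsOpen O) (hOR : (O ∩ Region).Nonempty) :
    (O ∩ Good k).Nonempty := by
  obtain ⟨m, g, hm, hmem⟩ := exists_dyadic_near _ (hO.inter isOpen_region) hOR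
  refine ⟨_, hmem.1, ?_⟩
  have hg : ∀ i, chr ((g i : ZMod (2 ^ m))) =
      circ (fun i => 2 * Real.pi * (g i : ℝ) / 2 ^ m) i := fun i => chr_dyadic (g i)
  have h := eventually_hasPair hm hmem.2 (fun i => (g i : ZMod (2 ^ m))) hg (thr_pos k m)
  rw [Good, mem_interior_iff_mem_nhds]
  exact h.mono fun θ ⟨ε, σ, a, b, c⟩ => ⟨m, ε, σ, a, b, c⟩

/-- Parameters at which the obstruction indexed by `(n, π)` does not vanish. -/
def NonDeg {n : ℕ} (π : Fin 4 → Equiv.Perm (Fin n)) : Set (Fin 4 → ℝ) :=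
  {θ | Function.Injective (circ θ) ∧ ∃ s : ℂ, (pmat π (fun i => s * coef (circ θ) i)).det ≠ 0}

theorem isOpen_nonDeg {n : ℕ} (π : Fin 4 → Equiv.Perm (Fin n)) : IsOpen (NonDeg π) := by
  rw [isOpen_iff_eventually]
  rintro θ ⟨hd, s, hs⟩
  have hc : ContinuousAt (fun θ => pmat π (fun i => s * coef (circ θ) i)) θ := by
    refine continuousAt_pi.mpr fun h => continuousAt_pi.mpr fun j => ?_
    refine ContinuousAt.add ?_ continuousAt_const
    refine tendsto_finsetSum _ fun i _ => ?_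
    split_ifs
    · exact continuousAt_const.mul (continuousAt_coef hd i)
    · exact tendsto_const_nhds
  filter_upwards [eventually_injective hd,
    ((continuous_id.matrix_det).continuousAt.comp hc).eventually_ne hs] with θ' a b
  exact ⟨a, s, b⟩

/-- Within the region, each `NonDeg π` is dense. -/
theorem nonDeg_meets {n : ℕ} (π : Fin 4 → Equiv.Perm (Fin n)) (hπ : π 3 = 1) (hc : Conn π)
    (O : Set (Fin 4 → ℝ)) (hO : IsOpen O) (hOR : (O ∩ Region).Nonempty) :
    (O ∩ NonDeg π).Nonempty := by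
  classical
  by_contra hcon
  rw [Set.not_nonempty_iff_eq_empty, Set.eq_empty_iff_forall_notMem] at hcon
  obtain ⟨θ₀, hθ₀⟩ := hOR
  have hU : IsOpen (O ∩ Region) := hO.inter isOpen_region
  obtain ⟨δ, hδ, hball⟩ := Metric.isOpen_iff.mp hU θ₀ hθ₀
  let zp : Fin 4 → MvPolynomial (Option (Fin 4)) ℂ := fun i => MvPolynomial.X (some i)
  let cp : Fin 4 → MvPolynomial (Option (Fin 4)) ℂ :=
    ![zp 0 * (zp 1 - zp 2) * (zp 1 - zp 3) * (zp 2 - zp 3),
      -(zp 1 * (zp 0 - zp 2) * (zp 0 - zp 3) * (zp 2 - zp 3)),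
      zp 2 * (zp 0 - zp 1) * (zp 0 - zp 3) * (zp 1 - zp 3),
      -(zp 3 * (zp 0 - zp 1) * (zp 0 - zp 2) * (zp 1 - zp 2))]
  let Q : MvPolynomial (Option (Fin 4)) ℂ :=
    (pmat π (fun i => MvPolynomial.X none * cp i)).det
  have heval : ∀ x : Option (Fin 4) → ℂ, MvPolynomial.eval x Q =
      (pmat π (fun i => x none * dep (fun j => x (some j)) i)).det := by
    intro x
    show MvPolynomial.eval x (pmat π (fun i => MvPolynomial.X none * cp i)).det = _
    rw [map_det_pmat]
    congr 2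
    funext i
    fin_cases i <;> simp [cp, zp, dep]
  let S : Option (Fin 4) → Set ℂ := fun o =>
    o.elim Set.univ fun i => (fun t : ℝ => Complex.exp ((t : ℂ) * Complex.I)) ''
      Set.Ioo (θ₀ i - min δ 1) (θ₀ i + min δ 1)
  have hS : ∀ o, (S o).Infinite := by
    rintro (_ | i)
    · exact Set.infinite_univ
    · refine (Set.Ioo_infinite (by have := lt_min hδ one_pos; linarith)).image ?_
      intro a ha b hb hab
      obtain ⟨k, hk⟩ := Complex.exp_eq_exp_iff_exists_int.mp hab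
      have h1 := congrArg Complex.im hk
      simp at h1
      have hlt : |a - b| < 2 := by
        rw [abs_lt]; constructor <;>
          linarith [ha.1, ha.2, hb.1, hb.2, min_le_right δ 1]
      have hk0 : k = 0 := by
        by_contra hk0
        have h2 : (1:ℝ) ≤ |(k:ℝ)| := by exact_mod_cast Int.one_le_abs hk0
        have h3 : |a - b| = |(k:ℝ)| * (2 * Real.pi) := by
          rw [h1, add_sub_cancel_left, abs_mul, abs_of_pos (show 0 < 2 * Real.pi by positivity)]
        nlinarith [Real.pi_gt_three]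
      simp [hk0] at h1
      exact h1
  have hQ : Q = 0 := by
    refine MvPolynomial.funext_set S hS fun x hx => ?_
    rw [map_zero, heval]
    have hx' : ∀ i, ∃ t ∈ Set.Ioo (θ₀ i - min δ 1) (θ₀ i + min δ 1),
        Complex.exp ((t : ℂ) * Complex.I) = x (some i) := fun i => hx (some i) trivial
    choose t ht hxt using hx'
    have htmem : t ∈ O ∩ Region := hball (by
      rw [Metric.mem_ball, dist_pi_lt_iff hδ]
      intro i
      rw [Real.dist_eq, abs_lt]
      constructor <;> linarith [(ht i).1, (ht i).2, min_le_left δ 1])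
    have hz : (fun j => x (some j)) = circ t := funext fun j => (hxt j).symm
    rw [hz]
    by_contra hne
    have hd := htmem.2.1
    refine hcon t ⟨htmem.1, hd, x none * dep (circ t) 3, ?_⟩
    convert hne using 3
    funext i
    have := dep_ne_zero (circ_ne_zero t) hd 3
    rw [coef]; field_simp
  have h3 : Real.sqrt 3 * Real.sqrt 3 = 3 := Real.mul_self_sqrt (by norm_num)
  have h3' : 0 < Real.sqrt 3 := by positivity
  let w : Fin 4 → ℝ := ![-1, 2 + Real.sqrt 3, 2 - Real.sqrt 3, 1]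
  let dr : Fin 4 → ℝ :=
    ![w 0 * (w 1 - w 2) * (w 1 - w 3) * (w 2 - w 3),
      -(w 1 * (w 0 - w 2) * (w 0 - w 3) * (w 2 - w 3)),
      w 2 * (w 0 - w 1) * (w 0 - w 3) * (w 1 - w 3),
      -(w 3 * (w 0 - w 1) * (w 0 - w 2) * (w 1 - w 2))]
  have hr0 : dr 0 ≠ 0 := by
    have : dr 0 = 4 * Real.sqrt 3 := by
      simp [dr, w]; grobner
    rw [this]; positivity
  have hr : ∀ i, dr i = (![1, 1, 1, -3] : Fin 4 → ℝ) i * dr 0 := by
    intro i
    fin_cases i <;> simp [dr, w] <;> grobner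
  have hx0 := congrArg (MvPolynomial.eval
    (fun o : Option (Fin 4) => o.elim ((((dr 0)⁻¹ : ℝ)) : ℂ) fun i => (w i : ℂ))) hQ
  rw [map_zero, heval] at hx0
  apply det_pmat_centroid π hπ hc
  apply Complex.ofReal_injective
  rw [Complex.ofReal_zero, ← hx0]
  show Complex.ofRealHom _ = _
  rw [map_det_pmat]
  congr 2
  funext i
  have hdep : dep (fun j => (w j : ℂ)) i = (dr i : ℂ) := by
    fin_cases i <;> simp [dep, dr]
  simp only [Option.elim, Complex.ofRealHom_eq_coe, hdep]
  rw [← Complex.ofReal_mul, hr i]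
  congr 1
  field_simp

/-- There is a quadrilateral which is Ramsey and not subtransitive. -/
theorem exists_ramsey_not_subtransitive :
    ∃ A : Set (EuclideanSpace ℝ (Fin 2)), A.Finite ∧ A.Nonempty ∧ A.ncard = 4 ∧
      (∀ a ∈ A, ‖a‖ = 1) ∧ IsRamsey A ∧ ¬ IsSubtransitive A := by
  classical
  obtain ⟨δ, hδ, hball⟩ := Metric.isOpen_iff.mp isOpen_region square square_mem_region
  let C : Set (Fin 4 → ℝ) := Metric.closedBall square (δ / 2)
  have hC : C ⊆ Region := (Metric.closedBall_subset_ball (by linarith)).trans hball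
  let T : Type := ℕ ⊕ {q : Σ n : ℕ, Fin 4 → Equiv.Perm (Fin n) // q.2 3 = 1 ∧ Conn q.2}
  let U : T → Set (Fin 4 → ℝ) := fun t =>
    Sum.elim (fun k => Good k) (fun q => NonDeg q.1.2) t ∪ Cᶜ
  have hopen : ∀ t, IsOpen (U t) := by
    rintro (k | q)
    · exact isOpen_interior.union Metric.isClosed_closedBall.isOpen_compl
    · exact (isOpen_nonDeg _).union Metric.isClosed_closedBall.isOpen_compl
  have hdense : ∀ t, Dense (U t) := by
    intro t
    rw [dense_iff_inter_open]
    intro O hO hne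
    by_cases hOC : (O ∩ Cᶜ).Nonempty
    · exact hOC.mono (Set.inter_subset_inter_right _ Set.subset_union_right)
    · obtain ⟨θ, hθ⟩ := hne
      have hθC : θ ∈ C := by_contra fun h => hOC ⟨θ, hθ, h⟩
      have hOR : (O ∩ Region).Nonempty := ⟨θ, hθ, hC hθC⟩
      rcases t with k | q
      · exact (good_meets k O hO hOR).mono
          (Set.inter_subset_inter_right _ Set.subset_union_left)
      · exact (nonDeg_meets _ q.2.1 q.2.2 O hO hOR).mono
          (Set.inter_subset_inter_right _ Set.subset_union_left)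
  have hD : Dense (⋂ t, U t) := dense_iInter_of_isOpen hopen hdense
  obtain ⟨θ, hθU, hθC⟩ := hD.exists_mem_open Metric.isOpen_ball
    ⟨square, Metric.mem_ball_self (half_pos hδ)⟩
  have hθC' : θ ∈ C := Metric.ball_subset_closedBall hθC
  have hU : ∀ t : T, θ ∈ (Sum.elim (fun k => Good k) (fun q => NonDeg q.1.2) t : Set (Fin 4 → ℝ)) := fun t =>
    (Set.mem_iInter.mp hθU t).resolve_right (fun h => h hθC')
  have hd := (hC hθC').1
  have hinj : Function.Injective (planePt θ) := fun i j h => hd (by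
    have := dist_planePt θ i j
    rw [h, dist_self] at this
    exact sub_eq_zero.mp (norm_eq_zero.mp this.symm))
  refine ⟨Set.range (planePt θ), Set.finite_range _, Set.range_nonempty _, ?_, ?_, ?_, ?_⟩
  · rw [← Set.image_univ, Set.ncard_image_of_injective _ hinj, Set.ncard_univ, Nat.card_fin]
  · rintro a ⟨i, rfl⟩
    have h := norm_circ θ i
    rw [Complex.norm_eq_sqrt_sq_add_sq] at h
    rw [EuclideanSpace.norm_eq]
    simpa [planePt, Fin.sum_univ_two] using h
  · intro r hr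
    obtain ⟨m, ε, σ, hε, hlt, hpair⟩ := interior_subset (hU (Sum.inl r))
    obtain ⟨D, hD, hcol⟩ :=
      (exists_threshold 4 r m).choose_spec.2.2 (circ θ) ε σ hε hlt hpair
    refine ⟨D, hD, fun col => ?_⟩
    obtain ⟨φ, hφ, hmono⟩ := hcol col
    let idx : Set.range (planePt θ) → Fin 4 := fun a => a.2.choose
    have hidx : ∀ a : Set.range (planePt θ), planePt θ (idx a) = a := fun a => a.2.choose_spec
    refine ⟨fun a => φ (idx a), fun a b => ?_, fun a b => hmono _ _⟩
    rw [hφ, ← dist_planePt, hidx, hidx]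
  · intro hs
    obtain ⟨n, π, hπ, hc, hdeg⟩ := exists_degenerate hd hs
    obtain ⟨-, s, hs'⟩ := hU (Sum.inr ⟨⟨n, π⟩, hπ, hc⟩)
    exact hs' (hdeg s)

end Vale.Agent.P058
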