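import Mathlib
import Vale.Agent.P058.Defs
import Vale.Agent.P058.Derivation

/-! A spherical nine-point set in the plane that is not Ramsey. -/

open scoped RealInnerProductSpace

namespace Vale.Agent.P058

/-- Straus colouring: twelve colours. -/
theorem straus_twelve (y : Fin 3 → Fin 3 → ℝ) (ρ : ℤ) (h : ∀ k j, ⌊y k j⌋ % 12 = ρ) :
    ∑ j, (y 0 j - 2 * y 1 j + y 2 j) ≠ 6 := by
  intro hsum
  simp only [Fin.sum_univ_three] at hsum
  have hq : ∀ k j, ∃ q : ℤ, ⌊y k j⌋ = 12 * q + ρ := fun k j =>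
    ⟨⌊y k j⌋ / 12, by have := Int.mul_ediv_add_emod ⌊y k j⌋ 12; rw [h] at this; omega⟩
  choose q hq using hq
  have hb : ∀ k j, (12 * (q k j : ℝ) + ρ) ≤ y k j ∧ y k j < 12 * (q k j : ℝ) + ρ + 1 := by
    intro k j
    have h1 := Int.floor_le (y k j)
    have h2 := Int.lt_floor_add_one (y k j)
    rw [hq k j] at h1 h2
    push_cast at h1 h2
    exact ⟨h1, h2⟩
  let Q : ℤ := q 0 0 + q 0 1 + q 0 2 - 2 * (q 1 0 + q 1 1 + q 1 2) + (q 2 0 + q 2 1 + q 2 2)
  have h00 := hb 0 0; have h01 := hb 0 1; have h02 := hb 0 2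
  have h10 := hb 1 0; have h11 := hb 1 1; have h12 := hb 1 2
  have h20 := hb 2 0; have h21 := hb 2 1; have h22 := hb 2 2
  have lo : (0:ℝ) < ((12 * Q : ℤ) : ℝ) := by
    simp only [Q]; push_cast; linarith
  have hi : ((12 * Q : ℤ) : ℝ) < ((12:ℤ) : ℝ) := by
    simp only [Q]; push_cast; linarith
  have lo' : (0:ℤ) < 12 * Q := by exact_mod_cast lo
  have hi' : 12 * Q < 12 := by exact_mod_cast hi
  omega

/-- The two coordinates of the point with index `(k, j)`. -/
noncomputable def pc (c s : ℝ) (k j : Fin 3) : ℝ × ℝ :=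
  let R : ℝ × ℝ := ![(1, 0), (c, s), (c * c - s * s, 2 * c * s)] k
  let w : ℝ × ℝ := ![(1, 0), (-1 / 2, Real.sqrt 3 / 2), (-1 / 2, -(Real.sqrt 3 / 2))] j
  (R.1 * w.1 - R.2 * w.2, R.1 * w.2 + R.2 * w.1)

theorem pc_norm (c s : ℝ) (h : c * c + s * s = 1) (k j : Fin 3) :
    (pc c s k j).1 ^ 2 + (pc c s k j).2 ^ 2 = 1 := by
  have h3 : Real.sqrt 3 * Real.sqrt 3 = 3 := Real.mul_self_sqrt (by norm_num)
  fin_cases k <;> fin_cases j <;> simp [pc] <;> grobner

/-- The per-coordinate identity behind the colouring. -/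
theorem coord_identity (D : Derivation ℤ ℝ ℝ) (c s : ℝ) (h : c * c + s * s = 1)
    (hc : D c = -s) (hs : D s = c) (u e f : ℝ) :
    ∑ j, ((D (u + (pc c s 0 j).1 * e + (pc c s 0 j).2 * f)) ^ 2
        - 2 * (D (u + (pc c s 1 j).1 * e + (pc c s 1 j).2 * f)) ^ 2
        + (D (u + (pc c s 2 j).1 * e + (pc c s 2 j).2 * f)) ^ 2) = 3 * (e ^ 2 + f ^ 2) := by
  have h3 : Real.sqrt 3 * Real.sqrt 3 = 3 := Real.mul_self_sqrt (by norm_num)
  have hn : ∀ n : ℕ, D (n : ℝ) = 0 := fun n => D.map_natCast n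
  have hhalf : D (1 / 2 : ℝ) = 0 := by
    have := D.leibniz (2:ℝ) (1 / 2)
    have h2 : D (2:ℝ) = 0 := by simpa using hn 2
    rw [show (2:ℝ) * (1 / 2) = 1 by norm_num, D.map_one_eq_zero, h2] at this
    simp at this
    linarith
  have hh : D (Real.sqrt 3) = 0 := by
    have h2 : D (Real.sqrt 3 * Real.sqrt 3) = 0 := by rw [h3]; simpa using hn 3
    rw [D.leibniz] at h2
    have : 0 < Real.sqrt 3 := by positivity
    simp only [smul_eq_mul] at h2
    nlinarith
  simp only [Fin.sum_univ_three, pc, Matrix.cons_val_zero, Matrix.cons_val_one, Matrix.cons_val_two,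
    Matrix.head_cons, Matrix.tail_cons, Matrix.cons_val]
  simp only [show (-1 / 2 : ℝ) = -(1 / 2) by norm_num,
    show Real.sqrt 3 / 2 = Real.sqrt 3 * (1 / 2) by ring]
  simp only [map_add, map_sub, map_neg, D.leibniz, smul_eq_mul, D.map_one_eq_zero, map_zero,
    hhalf, hh, hc, hs, show D (2:ℝ) = 0 by simpa using hn 2]
  grobner

/-- The nine-point configuration. -/
noncomputable def pts (c s : ℝ) (i : Fin 3 × Fin 3) : EuclideanSpace ℝ (Fin 2) :=
  !₂[(pc c s i.1 i.2).1, (pc c s i.1 i.2).2]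

/-- Structure of an isometric copy of a set containing the triangle `pts (0, ·)`. -/
theorem exists_frame {D : ℕ} (c s : ℝ) (x : Fin 3 × Fin 3 → EuclideanSpace ℝ (Fin D))
    (hx : ∀ i i', dist (x i) (x i') = dist (pts c s i) (pts c s i')) :
    ∃ u e f : EuclideanSpace ℝ (Fin D), ‖e‖ = 1 ∧ ‖f‖ = 1 ∧
      ∀ i, x i = u + (pc c s i.1 i.2).1 • e + (pc c s i.1 i.2).2 • f := by
  set z : Fin 3 → Fin 3 × Fin 3 := fun j => (0, j) with hz
  set r := Real.sqrt 3 with hr
  have h3 : r * r = 3 := Real.mul_self_sqrt (by norm_num)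
  have hrpos : 0 < r := by positivity
  have hd : ∀ i i', ‖x i - x i'‖ ^ 2 =
      ((pc c s i.1 i.2).1 - (pc c s i'.1 i'.2).1) ^ 2 +
        ((pc c s i.1 i.2).2 - (pc c s i'.1 i'.2).2) ^ 2 := by
    intro i i'
    rw [← dist_eq_norm, hx, dist_eq_norm, EuclideanSpace.real_norm_sq_eq]
    simp [pts, Fin.sum_univ_two]
  have hin : ∀ i i' i'', ⟪x i - x i'', x i' - x i''⟫ =
      ((pc c s i.1 i.2).1 - (pc c s i''.1 i''.2).1) * ((pc c s i'.1 i'.2).1 - (pc c s i''.1 i''.2).1) +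
      ((pc c s i.1 i.2).2 - (pc c s i''.1 i''.2).2) * ((pc c s i'.1 i'.2).2 - (pc c s i''.1 i''.2).2) := by
    intro i i' i''
    have h := norm_sub_sq_real (x i - x i'') (x i' - x i'')
    rw [sub_sub_sub_cancel_right, hd i i', hd i i'', hd i' i''] at h
    linarith
  set u := (1/3:ℝ) • (x (0,0) + x (0,1) + x (0,2)) with hu
  set e := x (0,0) - u with he
  set f := (1/r) • (x (0,1) - x (0,2)) with hf
  have he' : e = (-(1/3):ℝ) • (x (0,1) - x (0,0)) + (-(1/3):ℝ) • (x (0,2) - x (0,0)) := by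
    rw [he, hu]; module
  have hf' : f = (1/r) • (x (0,1) - x (0,0)) + (-(1/r)) • (x (0,2) - x (0,0)) := by
    rw [hf]; module
  have v : ∀ i, x i - u = (x i - x (0,0)) + (-(1/3):ℝ) • (x (0,1) - x (0,0))
      + (-(1/3):ℝ) • (x (0,2) - x (0,0)) := by
    intro i; rw [hu]; module
  refine ⟨u, e, f, ?_, ?_, ?_⟩
  · have : ‖e‖ ^ 2 = 1 := by
      rw [← real_inner_self_eq_norm_sq, he']
      simp only [inner_add_left, inner_add_right, inner_smul_left, inner_smul_right, hin,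
        RCLike.conj_to_real]
      simp [pc]
      grobner
    nlinarith [norm_nonneg e]
  · have : ‖f‖ ^ 2 = 1 := by
      rw [← real_inner_self_eq_norm_sq, hf']
      simp only [inner_add_left, inner_add_right, inner_smul_left, inner_smul_right, hin,
        RCLike.conj_to_real]
      simp [pc, ← hr]
      field_simp
      grobner
    nlinarith [norm_nonneg f]
  · intro i
    generalize hC : (pc c s i.1 i.2).1 = C
    generalize hS : (pc c s i.1 i.2).2 = S
    have hexp : (x i - u) - C • e - S • f = (x i - x (0,0)) + ((-(1/3):ℝ) * (1 - C) - S * (1/r)) • (x (0,1) - x (0,0))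
        + ((-(1/3):ℝ) * (1 - C) + S * (1/r)) • (x (0,2) - x (0,0)) := by
      rw [v, he', hf']; module
    have hzero : (x i - u) - C • e - S • f = 0 := by
      rw [← inner_self_eq_zero (𝕜 := ℝ), hexp]
      simp only [inner_add_left, inner_add_right, inner_smul_left,
        inner_smul_right, hin, RCLike.conj_to_real, hC, hS]
      simp [pc, ← hr]
      field_simp
      grobner
    rw [sub_sub, sub_eq_zero] at hzero
    rw [← sub_add_cancel (x i) u, hzero]; abel

/-- The configuration is not Ramsey. -/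
theorem not_ramsey (c s : ℝ) (h : c * c + s * s = 1) (D : Derivation ℤ ℝ ℝ)
    (hc : D c = -s) (hs : D s = c) : ¬ IsRamsey (Set.range (pts c s)) := by
  intro hR
  obtain ⟨n, -, hn⟩ := hR 12 (by norm_num)
  let F : EuclideanSpace ℝ (Fin n) → ℝ := fun x => ∑ p, (D (x p)) ^ 2
  obtain ⟨φ, hφ, hcol⟩ := hn fun x =>
    ⟨(⌊F x⌋ % 12).toNat, by
      have := Int.emod_lt_of_pos ⌊F x⌋ (show (0:ℤ) < 12 by norm_num)
      omega⟩
  let x : Fin 3 × Fin 3 → EuclideanSpace ℝ (Fin n) := fun i => φ ⟨pts c s i, i, rfl⟩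
  obtain ⟨u, e, f, he, hf, hxe⟩ := exists_frame c s x fun i i' => hφ _ _
  refine straus_twelve (fun k j => F (x (k, j))) (⌊F (x (0, 0))⌋ % 12) ?_ ?_
  · intro k j
    have := congrArg Fin.val (hcol ⟨pts c s (k, j), (k, j), rfl⟩ ⟨pts c s (0, 0), (0, 0), rfl⟩)
    simp only [x] at this ⊢
    have h1 := Int.emod_nonneg ⌊F (φ ⟨pts c s (k, j), (k, j), rfl⟩)⌋ (show (12:ℤ) ≠ 0 by norm_num)
    have h2 := Int.emod_nonneg ⌊F (φ ⟨pts c s (0, 0), (0, 0), rfl⟩)⌋ (show (12:ℤ) ≠ 0 by norm_num)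
    omega
  · have key : ∀ p, ∑ j, ((D (x (0, j) p)) ^ 2 - 2 * (D (x (1, j) p)) ^ 2 + (D (x (2, j) p)) ^ 2)
        = 3 * ((e p) ^ 2 + (f p) ^ 2) := by
      intro p
      simp only [hxe, PiLp.add_apply, PiLp.smul_apply, smul_eq_mul]
      exact coord_identity D c s h hc hs (u p) (e p) (f p)
    calc ∑ j, (F (x (0, j)) - 2 * F (x (1, j)) + F (x (2, j)))
        = ∑ j, ∑ p, ((D (x (0, j) p)) ^ 2 - 2 * (D (x (1, j) p)) ^ 2 + (D (x (2, j) p)) ^ 2) := by
          simp only [F, Finset.mul_sum, ← Finset.sum_sub_distrib, ← Finset.sum_add_distrib]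
      _ = ∑ p, 3 * ((e p) ^ 2 + (f p) ^ 2) := by
          rw [Finset.sum_comm]; exact Finset.sum_congr rfl fun p _ => key p
      _ = 6 := by
          rw [← Finset.mul_sum, Finset.sum_add_distrib, ← EuclideanSpace.real_norm_sq_eq,
            ← EuclideanSpace.real_norm_sq_eq, he, hf]
          norm_num

theorem exists_spherical_not_ramsey :
    ∃ A : Set (EuclideanSpace ℝ (Fin 2)), A.Finite ∧ A.Nonempty ∧ (∀ a ∈ A, ‖a‖ = 1) ∧
      ¬ IsRamsey A := by
  obtain ⟨c, hc1, hc2⟩ : ∃ c ∈ Set.Ioo (0:ℝ) 1, Transcendental ℚ c := by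
    by_contra hcon
    have hsub : Set.Ioo (0:ℝ) 1 ⊆ {x | IsAlgebraic ℚ x} := by
      intro x hx
      by_contra hx'
      exact hcon ⟨x, hx, hx'⟩
    exact Cardinal.Real.Ioo_countable_iff.not.mpr (by norm_num) ((Algebraic.countable ℚ ℝ).mono hsub)
  set s := Real.sqrt (1 - c * c) with hsdef
  have hpos : 0 < 1 - c * c := by nlinarith [hc1.1, hc1.2]
  have hs0 : 0 < s := Real.sqrt_pos.mpr hpos
  have h : c * c + s * s = 1 := by rw [hsdef, Real.mul_self_sqrt hpos.le]; ring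
  obtain ⟨D, hD⟩ := exists_derivation (fun _ : Fin 1 => c) (fun _ => -s)
    (algebraicIndependent_unique_type_iff.mpr hc2)
  have hc : D c = -s := hD 0
  have hs : D s = c := by
    have h0 : D (c * c + s * s) = 0 := by rw [h]; exact D.map_one_eq_zero
    simp only [map_add, D.leibniz, smul_eq_mul, hc] at h0
    nlinarith
  refine ⟨Set.range (pts c s), Set.finite_range _, Set.range_nonempty _, ?_,
    not_ramsey c s h D hc hs⟩
  rintro a ⟨i, rfl⟩
  have := pc_norm c s h i.1 i.2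
  rw [EuclideanSpace.norm_eq]
  simp [pts, Fin.sum_univ_two, this]

end Vale.Agent.P058
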